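import Crest.Agent.R83.H0a

/-!
# R83 TASK Inf: Laplacian of products, integration by parts against decaying functions
-/

set_option autoImplicit false

namespace Crest.Agent.R83

open MeasureTheory Set Filter Topology
open scoped Gradient RealInnerProductSpace ENNReal NNReal ContDiff

theorem dvg_congr {B B' : E3 → E3} {x : E3} (h : B =ᶠ[𝓝 x] B') : dvg B x = dvg B' x := by
  simp only [dvg, h.fderiv_eq]

theorem dvg_add {B B' : E3 → E3} {x : E3} (hB : DifferentiableAt ℝ B x) (hB' : DifferentiableAt ℝ B' x) :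
    dvg (fun y => B y + B' y) x = dvg B x + dvg B' x := by
  simp only [dvg, fderiv_fun_add hB hB', ContinuousLinearMap.add_apply, PiLp.add_apply,
    Finset.sum_add_distrib]

theorem dvg_smul {a : E3 → ℝ} {B : E3 → E3} {x : E3} (ha : DifferentiableAt ℝ a x)
    (hB : DifferentiableAt ℝ B x) :
    dvg (fun y => a y • B y) x = a x * dvg B x + ⟪∇ a x, B x⟫ := by
  simp only [dvg, fderiv_fun_smul ha hB, ContinuousLinearMap.add_apply, PiLp.add_apply,
    Finset.sum_add_distrib, ContinuousLinearMap.smul_apply, PiLp.smul_apply, smul_eq_mul,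
    ContinuousLinearMap.smulRight_apply, Finset.mul_sum, PiLp.inner_apply, ← grad_apply, RCLike.inner_apply,
    conj_trivial]
  exact congrArg _ (Finset.sum_congr rfl fun i _ => mul_comm _ _)

theorem inf_diff_grad {a : E3 → ℝ} {x : E3} (ha : ContDiffAt ℝ 2 a x) : DifferentiableAt ℝ (∇ a) x :=
  (contDiffAt_grad (n := 1) ha).differentiableAt (by simp)

theorem inf_ev {V : Type} [NormedAddCommGroup V] [NormedSpace ℝ V] {a : V → ℝ} {x : V}
    (ha : ContDiffAt ℝ 2 a x) : ∀ᶠ y in 𝓝 x, DifferentiableAt ℝ a y :=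
  (ha.eventually (by simp)).mono fun _ hy => hy.differentiableAt (by simp)

theorem lap_congr {a b : E3 → ℝ} {x : E3} (h : a =ᶠ[𝓝 x] b) : lap a x = lap b x :=
  dvg_congr (h.eventuallyEq_nhds.mono fun _ hy => hy.gradient_eq)

theorem lap_const (c : ℝ) (x : E3) : lap (fun _ => c) x = 0 := by
  have : ∇ (fun _ : E3 => c) = fun _ => 0 := funext fun y => gradient_fun_const y c
  simp [lap, dvg, this]

theorem continuous_lap {a : E3 → ℝ} (ha : ContDiff ℝ 2 a) : Continuous (lap a) := by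
  have h : ContDiff ℝ 1 (∇ a) := contDiff_iff_contDiffAt.2 fun x => contDiffAt_grad (n := 1) ha.contDiffAt
  have h' := h.continuous_fderiv (by simp)
  unfold lap dvg
  fun_prop

theorem grad_comp_smul (a : E3 → ℝ) (c : ℝ) (x : E3) : ∇ (fun y => a (c • y)) x = c • ∇ a (c • x) := by
  ext i
  rw [grad_apply, fderiv_comp_smul, PiLp.smul_apply, grad_apply]
  rfl

theorem lap_comp_smul {a : E3 → ℝ} (ha : ContDiff ℝ 2 a) (c : ℝ) (x : E3) :
    lap (fun y => a (c • y)) x = c ^ 2 * lap a (c • x) := by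
  have h : ∇ (fun y => a (c • y)) = fun y => c • ∇ a (c • y) := funext (grad_comp_smul a c)
  have h' : DifferentiableAt ℝ (fun y => ∇ a (c • y)) x :=
    (inf_diff_grad ha.contDiffAt).comp x (by fun_prop)
  simp only [lap, dvg, h, fderiv_fun_const_smul h', fderiv_comp_smul, ContinuousLinearMap.smul_apply,
    PiLp.smul_apply, smul_eq_mul, Finset.mul_sum]
  exact Finset.sum_congr rfl fun i _ => by ring

theorem lap_mul {a b : E3 → ℝ} {x : E3} (ha : ContDiffAt ℝ 2 a x) (hb : ContDiffAt ℝ 2 b x) :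
    lap (fun y => a y * b y) x = a x * lap b x + 2 * ⟪∇ a x, ∇ b x⟫ + b x * lap a x := by
  have h : ∇ (fun y => a y * b y) =ᶠ[𝓝 x] fun y => a y • ∇ b y + b y • ∇ a y := by
    filter_upwards [inf_ev ha, inf_ev hb] with y h1 h2 using grad_mul h1 h2
  have h1 := ha.differentiableAt (by simp)
  have h2 := hb.differentiableAt (by simp)
  rw [lap, dvg_congr h, dvg_add (h1.fun_smul (inf_diff_grad hb)) (h2.fun_smul (inf_diff_grad ha)),
    dvg_smul h1 (inf_diff_grad hb), dvg_smul h2 (inf_diff_grad ha), real_inner_comm (∇ a x), lap, lap]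
  ring

theorem lap_comp {a : E3 → ℝ} {h : ℝ → ℝ} {x : E3} (ha : ContDiffAt ℝ 2 a x) (hh : ContDiffAt ℝ 2 h (a x)) :
    lap (fun y => h (a y)) x = deriv (deriv h) (a x) * ‖∇ a x‖ ^ 2 + deriv h (a x) * lap a x := by
  have h1 := ha.differentiableAt (by simp)
  have h0 : ∇ (fun y => h (a y)) =ᶠ[𝓝 x] fun y => deriv h (a y) • ∇ a y := by
    filter_upwards [inf_ev ha, h1.continuousAt.eventually (inf_ev hh)] with y h1 h2
      using grad_comp h2.hasDerivAt h1
  have h2 : DifferentiableAt ℝ (deriv h) (a x) :=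
    ((hh.fderiv_right (m := 1) (by norm_num)).clm_apply contDiffAt_const).differentiableAt (by simp)
  rw [lap, dvg_congr h0, dvg_smul (a := fun y => deriv h (a y)) (h2.comp x h1) (inf_diff_grad ha), grad_comp h2.hasDerivAt h1,
    real_inner_smul_left, real_inner_self_eq_norm_sq, lap, add_comm]

instance holder_six : ENNReal.HolderTriple 6 (6 / 5) 1 := ⟨by
  rw [ENNReal.inv_div (by simp) (by simp), inv_one, inv_eq_one_div, ← ENNReal.add_div]
  norm_num
  exact ENNReal.div_self (by simp) (by simp)⟩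

theorem inf_memLp : MemLp (fun x : E3 => ((1 + ‖x‖) ^ 3)⁻¹) (6 / 5) volume := by
  have hc : Continuous fun x : E3 => ((1 + ‖x‖) ^ 3)⁻¹ :=
    Continuous.inv₀ (by fun_prop) fun x => by positivity
  rw [← integrable_norm_rpow_iff hc.aestronglyMeasurable (by simp) (ENNReal.div_ne_top (by simp) (by simp))]
  refine (integrable_one_add_norm (E := E3) (μ := volume) (r := 18 / 5) (by simp; norm_num)).congr
    (Eventually.of_forall fun x => ?_)
  have h : 0 < 1 + ‖x‖ := by positivity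
  simp only [ENNReal.toReal_div, ENNReal.toReal_ofNat]
  rw [Real.norm_of_nonneg (by positivity), ← Real.rpow_natCast, ← Real.rpow_neg h.le, ← Real.rpow_mul h.le]
  norm_num

/-- cut-offs at infinity -/
theorem inf_cut : ∃ (χ : ℝ → E3 → ℝ) (A : ℝ), 0 ≤ A ∧ ∀ L, 0 < L → ContDiff ℝ 2 (χ L) ∧
    HasCompactSupport (χ L) ∧ (∀ x, |χ L x| ≤ 1) ∧
    (∀ x, ‖x‖ < L → χ L x = 1 ∧ ∇ (χ L) x = 0 ∧ lap (χ L) x = 0) ∧
    ∀ x, x ≠ 0 → ‖∇ (χ L) x‖ ≤ A / ‖x‖ ∧ |lap (χ L) x| ≤ A / ‖x‖ ^ 2 := by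
  let b : ContDiffBump (0 : E3) := ⟨1, 2, one_pos, one_lt_two⟩
  have hb : ContDiff ℝ 2 b := b.contDiff
  have ht : Test univ b := ⟨hb.of_le (by norm_num), b.hasCompactSupport, subset_univ _⟩
  obtain ⟨A₁, hA₁, h₁⟩ := ht.bdd
  have h0 : ∀ y : E3, 2 < ‖y‖ → ∇ b y = 0 ∧ lap b y = 0 := fun y hy => by
    have h2 : (b : E3 → ℝ) =ᶠ[𝓝 y] fun _ => 0 := by
      filter_upwards [(isOpen_lt continuous_const continuous_norm).mem_nhds hy] with z hz
      exact b.zero_of_le_dist (by simpa using le_of_lt hz)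
    rw [h2.gradient_eq, lap_congr h2, lap_const]
    exact ⟨gradient_fun_const _ _, rfl⟩
  obtain ⟨A₂, h₂⟩ := (isCompact_closedBall (0 : E3) 2).exists_bound_of_continuousOn
    (continuous_lap hb).continuousOn
  have hA₂ : 0 ≤ A₂ := (norm_nonneg _).trans (h₂ 0 (by simp))
  refine ⟨fun L x => b (L⁻¹ • x), 2 * A₁ + 4 * A₂, by positivity, fun L hL => ⟨hb.comp (by fun_prop),
    b.hasCompactSupport.comp_smul (inv_pos.2 hL).ne', fun x => ?_, fun x hx => ?_, fun x hx => ?_⟩⟩
  · rw [abs_of_nonneg b.nonneg]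
    exact b.le_one
  · have h2 : (b : E3 → ℝ) =ᶠ[𝓝 (L⁻¹ • x)] fun _ => 1 := b.eventuallyEq_one_of_mem_ball (by
      rw [mem_ball_zero_iff, norm_smul, Real.norm_of_nonneg (inv_pos.2 hL).le, inv_mul_lt_iff₀ hL]
      simpa [b] using hx)
    rw [grad_comp_smul, lap_comp_smul hb, h2.gradient_eq, lap_congr h2, lap_const, gradient_fun_const]
    exact ⟨h2.eq_of_nhds, by simp, by simp⟩
  · have hx' := norm_pos_iff.2 hx
    rw [grad_comp_smul, lap_comp_smul hb]
    rcases lt_or_ge 2 ‖L⁻¹ • x‖ with h3 | h3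
    · rw [(h0 _ h3).1, (h0 _ h3).2]
      simp only [smul_zero, norm_zero, mul_zero, abs_zero]
      constructor <;> positivity
    · have h4 := h₂ _ (mem_closedBall_zero_iff.2 h3)
      have h5 := (h₁ (L⁻¹ • x)).2
      have h6 := inv_pos.2 hL
      rw [norm_smul, Real.norm_of_nonneg h6.le] at h3
      rw [norm_smul, Real.norm_of_nonneg h6.le, abs_mul, abs_of_nonneg (sq_nonneg _), le_div_iff₀ hx',
        le_div_iff₀ (by positivity)]
      rw [Real.norm_eq_abs] at h4
      constructor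
      · nlinarith [mul_le_mul h3 h5 (norm_nonneg _) zero_le_two]
      · have h7 : (L⁻¹ * ‖x‖) ^ 2 ≤ 2 ^ 2 := by gcongr
        nlinarith [mul_le_mul h7 h4 (abs_nonneg _) (by norm_num)]

/-- Test with `χ (x / L) ψ`, `χ` a smooth bump, and use `H0.ibp_dvg` and `lap_mul`.  The error terms are bounded by
`C L⁻³` on `L ≤ ‖x‖ ≤ 2 L`, so their `L ^ (6/5)` norm is `O(L ^ (-1/2))`; Hölder with `P ∈ L⁶`. -/
theorem ibp_decay {Ω : Set E3} {P f ψ : E3 → ℝ} {G J : E3 → E3} (hP : H0 univ P G) (hw : WD Ω J f)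
    (hf : Src f) (hψ : ContDiff ℝ 2 ψ) (hs : tsupport ψ ⊆ Ω) {C R : ℝ}
    (hd : ∀ x, R ≤ ‖x‖ → |ψ x| ≤ C / ‖x‖ ∧ ‖∇ ψ x‖ ≤ C / ‖x‖ ^ 2)
    (hJ : ∀ᵐ x, (∇ ψ x ≠ 0 ∨ R ≤ ‖x‖) → J x = G x) (hl : MemLp (lap ψ) (6 / 5) volume) :
    -∫ x, P x * lap ψ x = ∫ x, f x * ψ x := by
  obtain ⟨χ, A, hA, hχ⟩ := inf_cut
  obtain ⟨Rf, Mf, hf⟩ := hf
  have h1 : ∀ᶠ L in atTop, -∫ x, P x * lap (fun y => χ L y * ψ y) x = ∫ x, f x * ψ x := by
    filter_upwards [eventually_gt_atTop 0, eventually_ge_atTop R, eventually_ge_atTop Rf] with L h0 hR hR'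
    obtain ⟨c1, c2, -, c4, -⟩ := hχ L h0
    have hc : ContDiff ℝ 2 fun y => χ L y * ψ y := c1.mul hψ
    have ht : Test Ω fun y => χ L y * ψ y :=
      ⟨hc.of_le (by norm_num), c2.mul_right, (tsupport_mul_subset_right).trans hs⟩
    simp only [lap]
    rw [← hP.ibp_dvg (contDiff_iff_contDiffAt.2 fun x => contDiffAt_grad (n := 1) hc.contDiffAt)
      ht.hasCompactSupport_grad]
    refine (integral_congr_ae ?_).trans ((hw _ ht).trans (integral_congr_ae (Eventually.of_forall fun x => ?_)))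
    · filter_upwards [hJ] with x hx
      by_cases h2 : ∇ ψ x ≠ 0 ∨ R ≤ ‖x‖
      · rw [hx h2]
      · rw [not_or, not_not, not_le] at h2
        rw [grad_mul (c1.differentiable (by simp) x) (hψ.differentiable (by simp) x), h2.1,
          (c4 x (h2.2.trans_le hR)).2.1]
        simp
    · by_cases h2 : x ∈ Metric.ball (0 : E3) Rf
      · simp only [(c4 x ((mem_ball_zero_iff.1 h2).trans_le hR')).1, one_mul]
      · simp only [hf.off x h2, zero_mul]
  have h2 : Tendsto (fun L => ∫ x, P x * lap (fun y => χ L y * ψ y) x) atTop (𝓝 (∫ x, P x * lap ψ x)) := by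
    refine tendsto_integral_filter_of_dominated_convergence
      (fun x => |P x * lap ψ x| + 24 * A * |C| * |P x * ((1 + ‖x‖) ^ 3)⁻¹|) ?_ ?_
      ((hP.mu.integrable_mul hl).abs.add ((hP.mu.integrable_mul inf_memLp).abs.const_mul _)) ?_
    · filter_upwards [eventually_gt_atTop 0] with L h0
      exact hP.mu.1.mul (continuous_lap ((hχ L h0).1.mul hψ)).aestronglyMeasurable
    · filter_upwards [eventually_ge_atTop 1, eventually_ge_atTop R] with L h0 hR
      obtain ⟨c1, -, c3, c4, c5⟩ := hχ L (by linarith)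
      refine Eventually.of_forall fun x => ?_
      rw [Real.norm_eq_abs, abs_mul, abs_mul, abs_mul, mul_left_comm, ← mul_add]
      refine mul_le_mul_of_nonneg_left ?_ (abs_nonneg _)
      rw [lap_mul c1.contDiffAt hψ.contDiffAt, add_assoc]
      refine (abs_add_le _ _).trans (add_le_add ?_ ?_)
      · rw [abs_mul]
        exact mul_le_of_le_one_left (abs_nonneg _) (c3 x)
      rcases lt_or_ge ‖x‖ L with h3 | h3
      · rw [(c4 x h3).2.1, (c4 x h3).2.2]
        simp only [inner_zero_left, mul_zero, add_zero, abs_zero]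
        positivity
      have h4 : 0 < ‖x‖ := by linarith
      obtain ⟨d1, d2⟩ := hd x (hR.trans h3)
      obtain ⟨d3, d4⟩ := c5 x (norm_pos_iff.1 h4)
      have d5 : |ψ x| ≤ |C| / ‖x‖ := d1.trans (by gcongr; exact le_abs_self C)
      have d6 : ‖∇ ψ x‖ ≤ |C| / ‖x‖ ^ 2 := d2.trans (by gcongr; exact le_abs_self C)
      calc _ ≤ 2 * (A / ‖x‖ * (|C| / ‖x‖ ^ 2)) + |C| / ‖x‖ * (A / ‖x‖ ^ 2) := by
            refine (abs_add_le _ _).trans (add_le_add ?_ ?_)
            · rw [abs_mul, abs_two]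
              gcongr
              exact (abs_real_inner_le_norm _ _).trans (by gcongr)
            · rw [abs_mul]
              gcongr
        _ = 24 * A * |C| * ((2 * ‖x‖) ^ 3)⁻¹ := by field_simp; ring
        _ ≤ _ := by
            rw [abs_of_nonneg (a := ((1 + ‖x‖) ^ 3)⁻¹) (by positivity)]
            gcongr
            linarith
    · refine Eventually.of_forall fun x => tendsto_const_nhds.congr' ?_
      filter_upwards [eventually_gt_atTop 0, eventually_gt_atTop ‖x‖] with L h0 hx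
      obtain ⟨c1, -, -, c4, -⟩ := hχ L h0
      rw [lap_mul c1.contDiffAt hψ.contDiffAt, (c4 x hx).1, (c4 x hx).2.1, (c4 x hx).2.2]
      simp
  exact tendsto_nhds_unique h2.neg (tendsto_const_nhds.congr' (h1.mono fun _ h => h.symm))

end Crest.Agent.R83
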