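import Crest.Agent.R83.Ker
import Crest.Agent.R83.Inf

/-!
# R83 TASK Newt: the Newton potential
-/

set_option autoImplicit false

namespace Crest.Agent.R83

open MeasureTheory Set Filter Topology
open scoped Gradient RealInnerProductSpace ENNReal NNReal ContDiff

/-- partial derivative -/
noncomputable def newtD (i : Fin 3) (g : E3 → ℝ) (x : E3) : ℝ := fderiv ℝ g x (e i)

theorem newt_D_contDiff {n : ℕ} {g : E3 → ℝ} (hg : ContDiff ℝ (n + 1 : ℕ) g) (i : Fin 3) :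
    ContDiff ℝ n (newtD i g) :=
  (hg.fderiv_right (m := n) (by push_cast; exact le_rfl)).clm_apply contDiff_const

theorem newt_D_c1 {g : E3 → ℝ} (hg : ContDiff ℝ 2 g) (i : Fin 3) : ContDiff ℝ 1 (newtD i g) :=
  newt_D_contDiff (n := 1) hg i

theorem newt_D_cont {g : E3 → ℝ} (hg : ContDiff ℝ 1 g) (i : Fin 3) : Continuous (newtD i g) :=
  (newt_D_contDiff (n := 0) hg i).continuous

theorem newt_D_cpt {g : E3 → ℝ} (hc : HasCompactSupport g) (i : Fin 3) : HasCompactSupport (newtD i g) :=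
  hc.fderiv_apply ℝ (e i)

theorem newt_lap {g : E3 → ℝ} (hg : ContDiff ℝ 2 g) (x : E3) :
    lap g x = ∑ i, newtD i (newtD i g) x := by
  have h1 : DifferentiableAt ℝ (∇ g) x :=
    (contDiffAt_grad (n := 1) hg.contDiffAt).differentiableAt (by simp)
  rw [lap, dvg]
  refine Finset.sum_congr rfl fun i _ => ?_
  have h2 : newtD i g = (EuclideanSpace.proj i : E3 →L[ℝ] ℝ) ∘ ∇ g :=
    funext fun y => (grad_apply g y i).symm
  have h3 := ((EuclideanSpace.proj i : E3 →L[ℝ] ℝ).hasFDerivAt.comp x h1.hasFDerivAt).fderiv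
  rw [h2, newtD, h3]
  rfl

theorem newt_int (r : ℝ) (hr : 3 < r) : Integrable fun y : E3 => (1 + ‖y‖ ^ 2) ^ (-r / 2) :=
  integrable_rpow_neg_one_add_norm_sq (by simpa using hr)

theorem newt_int5 : Integrable fun y : E3 => 3 * (1 + ‖y‖ ^ 2) ^ (-(5 / 2) : ℝ) := by
  have := (newt_int 5 (by norm_num)).const_mul 3
  simpa only [neg_div] using this

/-- `integrable_rpow_neg_one_add_norm_sq` -/
theorem c0_pos : 0 < c0 := by
  refine (integral_pos_iff_support_of_nonneg (fun y => by positivity) newt_int5).2 ?_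
  have : Function.support (fun y : E3 => 3 * (1 + ‖y‖ ^ 2) ^ (-(5 / 2) : ℝ)) = univ :=
    eq_univ_of_forall fun y => by
      rw [Function.mem_support]
      positivity
  rw [this]
  simp

theorem newt_hasF {ε : ℝ} (hε : 0 < ε) (p : ℝ) (y : E3) :
    HasFDerivAt (fun z : E3 => (ε ^ 2 + ‖z‖ ^ 2) ^ p)
      ((p * (ε ^ 2 + ‖y‖ ^ 2) ^ (p - 1)) • ((2 : ℕ) • innerSL ℝ y)) y :=
  ((hasStrictFDerivAt_norm_sq y).hasFDerivAt.const_add (ε ^ 2)).rpow_const (Or.inl (by positivity))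

theorem newt_reg_c2 {ε : ℝ} (hε : 0 < ε) (p : ℝ) :
    ContDiff ℝ 2 fun z : E3 => (ε ^ 2 + ‖z‖ ^ 2) ^ p :=
  (contDiff_const.add (contDiff_norm_sq ℝ)).rpow_const_of_ne fun z => by positivity

theorem newt_D_reg {ε : ℝ} (hε : 0 < ε) (p : ℝ) (i : Fin 3) :
    newtD i (fun z : E3 => (ε ^ 2 + ‖z‖ ^ 2) ^ p) =
      fun y => (2 * p) * ((ε ^ 2 + ‖y‖ ^ 2) ^ (p - 1) * y i) := by
  funext y
  rw [newtD, (newt_hasF hε p y).fderiv]
  simp [EuclideanSpace.inner_single_right]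
  ring

theorem lap_reg {ε : ℝ} (hε : 0 < ε) (y : E3) :
    lap (fun z : E3 => (ε ^ 2 + ‖z‖ ^ 2) ^ (-(1 / 2) : ℝ)) y =
      -(3 * ε ^ 2 * (ε ^ 2 + ‖y‖ ^ 2) ^ (-(5 / 2) : ℝ)) := by
  rw [newt_lap (newt_reg_c2 hε _)]
  have hs : 0 < ε ^ 2 + ‖y‖ ^ 2 := by positivity
  have h : ∀ i : Fin 3, newtD i (newtD i fun z : E3 => (ε ^ 2 + ‖z‖ ^ 2) ^ (-(1 / 2) : ℝ)) y =
      3 * (ε ^ 2 + ‖y‖ ^ 2) ^ (-(5 / 2) : ℝ) * y i ^ 2 - (ε ^ 2 + ‖y‖ ^ 2) ^ (-(3 / 2) : ℝ) := by
    intro i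
    have h1 := ((newt_hasF hε (-(1 / 2) - 1) y).mul
      (EuclideanSpace.proj i : E3 →L[ℝ] ℝ).hasFDerivAt).const_mul (2 * -(1 / 2) : ℝ)
    rw [newt_D_reg hε, newtD]
    refine (congrArg (fun L : E3 →L[ℝ] ℝ => L (e i)) h1.fderiv).trans ?_
    have e1 : (-(1 / 2) - 1 : ℝ) = -(3 / 2) := by norm_num
    have e2 : (-(3 / 2) - 1 : ℝ) = -(5 / 2) := by norm_num
    rw [e1, e2]
    simp [EuclideanSpace.inner_single_right]
    ring
  have e3 : (ε ^ 2 + ‖y‖ ^ 2) ^ (-(3 / 2) : ℝ) =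
      (ε ^ 2 + ‖y‖ ^ 2) ^ (-(5 / 2) : ℝ) * (ε ^ 2 + ‖y‖ ^ 2) := by
    rw [← Real.rpow_add_one hs.ne']
    norm_num
  have e4 : ‖y‖ ^ 2 = y 0 ^ 2 + y 1 ^ 2 + y 2 ^ 2 := by
    rw [EuclideanSpace.norm_sq_eq, Fin.sum_univ_three]
    simp
  rw [Fin.sum_univ_three, h, h, h, e3]
  generalize (ε ^ 2 + ‖y‖ ^ 2) ^ (-(5 / 2) : ℝ) = t
  rw [e4]
  ring

theorem newt_ibp {a g : E3 → ℝ} (ha : ContDiff ℝ 1 a) (hg : ContDiff ℝ 1 g) (hc : HasCompactSupport g)
    (i : Fin 3) : ∫ x, a x * newtD i g x = -∫ x, newtD i a x * g x :=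
  integral_mul_fderiv_eq_neg_fderiv_mul_of_integrable
    (((newt_D_cont ha i).mul hg.continuous).integrable_of_hasCompactSupport hc.mul_left)
    ((ha.continuous.mul (newt_D_cont hg i)).integrable_of_hasCompactSupport (newt_D_cpt hc i).mul_left)
    ((ha.continuous.mul hg.continuous).integrable_of_hasCompactSupport hc.mul_left)
    (fun x _ => ha.differentiable (by simp) x) fun x _ => hg.differentiable (by simp) x

theorem newt_green {a g : E3 → ℝ} (ha : ContDiff ℝ 2 a) (hg : ContDiff ℝ 2 g) (hc : HasCompactSupport g) :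
    ∫ x, a x * lap g x = ∫ x, lap a x * g x := by
  have ha1 : ContDiff ℝ 1 a := ha.of_le (by norm_num)
  have hg1 : ContDiff ℝ 1 g := hg.of_le (by norm_num)
  simp only [newt_lap ha, newt_lap hg, Finset.mul_sum, Finset.sum_mul]
  have i1 : ∀ i, Integrable fun x => a x * newtD i (newtD i g) x := fun i =>
    (ha.continuous.mul (newt_D_cont (newt_D_c1 hg i) i)).integrable_of_hasCompactSupport
      (newt_D_cpt (newt_D_cpt hc i) i).mul_left
  have i2 : ∀ i, Integrable fun x => newtD i (newtD i a) x * g x := fun i =>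
    ((newt_D_cont (newt_D_c1 ha i) i).mul hg.continuous).integrable_of_hasCompactSupport hc.mul_left
  rw [integral_finsetSum _ fun i _ => i1 i, integral_finsetSum _ fun i _ => i2 i]
  refine Finset.sum_congr rfl fun i _ => ?_
  rw [newt_ibp ha1 (newt_D_c1 hg i) (newt_D_cpt hc i), newt_ibp (newt_D_c1 ha i) hg1 hc, neg_neg]

theorem newt_lap_cont {g : E3 → ℝ} (hg : ContDiff ℝ 2 g) : Continuous (lap g) := by
  rw [show lap g = fun x => ∑ i, newtD i (newtD i g) x from funext (newt_lap hg)]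
  exact continuous_finsetSum _ fun i _ => newt_D_cont (newt_D_c1 hg i) i

theorem newt_lap_cpt {g : E3 → ℝ} (hg : ContDiff ℝ 2 g) (hc : HasCompactSupport g) :
    HasCompactSupport (lap g) := by
  rw [show lap g = newtD 0 (newtD 0 g) + newtD 1 (newtD 1 g) + newtD 2 (newtD 2 g) from
    funext fun x => by rw [newt_lap hg, Fin.sum_univ_three]; rfl]
  exact ((newt_D_cpt (newt_D_cpt hc 0) 0).add (newt_D_cpt (newt_D_cpt hc 1) 1)).add
    (newt_D_cpt (newt_D_cpt hc 2) 2)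

theorem newt_locInt : LocallyIntegrable (fun z : E3 => ‖z‖⁻¹) volume :=
  locallyIntegrable_of_norm_le_rpow (C := 1) (α := 1) (by simp) (by simp)
    (.of_forall fun z => by simp [Real.rpow_neg_one]) measurable_norm.inv.aestronglyMeasurable

theorem newt_zero {g : E3 → ℝ} (hg : ContDiff ℝ 2 g) (hc : HasCompactSupport g) :
    ∫ z, ‖z‖⁻¹ * lap g z = -(c0 * g 0) := by
  have hε : ∀ n : ℕ, (0 : ℝ) < 1 / ((n : ℝ) + 1) := fun n => by positivity
  have hε0 : Tendsto (fun n : ℕ => 1 / ((n : ℝ) + 1)) atTop (𝓝 0) := tendsto_one_div_add_atTop_nhds_zero_nat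
  have hl := newt_lap_cont hg
  have e1 : ∀ ε : ℝ, 0 < ε → ∫ z : E3, (ε ^ 2 + ‖z‖ ^ 2) ^ (-(1 / 2) : ℝ) * lap g z =
      ∫ w : E3, -(3 * (1 + ‖w‖ ^ 2) ^ (-(5 / 2) : ℝ) * g (ε • w)) := by
    intro ε hε
    rw [newt_green (newt_reg_c2 hε _) hg hc]
    have h1 := Measure.integral_comp_smul_of_nonneg volume
      (fun z : E3 => lap (fun z : E3 => (ε ^ 2 + ‖z‖ ^ 2) ^ (-(1 / 2) : ℝ)) z * g z) ε (hR := hε.le)
    rw [finrank_euclideanSpace_fin, smul_eq_mul, eq_inv_mul_iff_mul_eq₀ (by positivity)] at h1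
    rw [← h1, ← integral_const_mul]
    refine integral_congr_ae (.of_forall fun w => ?_)
    have h2 : ε ^ 2 + ‖ε • w‖ ^ 2 = ε ^ 2 * (1 + ‖w‖ ^ 2) := by
      rw [norm_smul, Real.norm_of_nonneg hε.le]
      ring
    have h3 : (ε ^ 2) ^ (-(5 / 2) : ℝ) = (ε ^ 5)⁻¹ := by
      rw [← Real.rpow_natCast, ← Real.rpow_mul hε.le, ← Real.rpow_natCast, ← Real.rpow_neg hε.le]
      norm_num
    simp only [lap_reg hε]
    rw [h2, Real.mul_rpow (by positivity) (by positivity), h3]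
    field_simp
  have t1 : Tendsto (fun n : ℕ => ∫ z : E3, ((1 / ((n : ℝ) + 1)) ^ 2 + ‖z‖ ^ 2) ^ (-(1 / 2) : ℝ) * lap g z)
      atTop (𝓝 (∫ z, ‖z‖⁻¹ * lap g z)) := by
    have hsq : ∀ z : E3, (‖z‖ ^ 2) ^ (-(1 / 2) : ℝ) = ‖z‖⁻¹ := fun z => by
      rw [← Real.rpow_natCast, ← Real.rpow_mul (norm_nonneg z), ← Real.rpow_neg_one]
      norm_num
    have hne : ∀ᵐ z : E3, z ≠ 0 := by simp [ae_iff]
    refine tendsto_integral_of_dominated_convergence (fun z => ‖‖z‖⁻¹ * lap g z‖)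
      (fun n => ((newt_reg_c2 (hε n) _).continuous.mul hl).aestronglyMeasurable)
      (newt_locInt.integrable_smul_right_of_hasCompactSupport hl (newt_lap_cpt hg hc)).norm
      (fun n => hne.mono fun z hz => ?_) (hne.mono fun z hz => ?_)
    · have hz' : 0 < ‖z‖ := norm_pos_iff.2 hz
      rw [norm_mul, norm_mul, Real.norm_of_nonneg (Real.rpow_nonneg (by positivity) _),
        Real.norm_of_nonneg (inv_nonneg.2 hz'.le), ← hsq]
      refine mul_le_mul_of_nonneg_right ?_ (norm_nonneg _)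
      exact Real.rpow_le_rpow_of_nonpos (by positivity) (le_add_of_nonneg_left (by positivity))
        (by norm_num)
    · have hz' : 0 < ‖z‖ := norm_pos_iff.2 hz
      rw [← hsq]
      refine Tendsto.mul_const _ (Tendsto.rpow_const ?_ (Or.inl (by positivity)))
      simpa using (hε0.pow 2).add_const (‖z‖ ^ 2)
  obtain ⟨M, hM⟩ := hg.continuous.bounded_above_of_compact_support hc
  have t2 : Tendsto (fun n : ℕ => ∫ w : E3, -(3 * (1 + ‖w‖ ^ 2) ^ (-(5 / 2) : ℝ) * g ((1 / ((n : ℝ) + 1)) • w)))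
      atTop (𝓝 (∫ w : E3, -(3 * (1 + ‖w‖ ^ 2) ^ (-(5 / 2) : ℝ) * g 0))) := by
    refine tendsto_integral_of_dominated_convergence (fun w => 3 * (1 + ‖w‖ ^ 2) ^ (-(5 / 2) : ℝ) * M)
      (fun n => (newt_int5.aestronglyMeasurable.mul
        (hg.continuous.comp (continuous_const_smul _)).aestronglyMeasurable).neg)
      (newt_int5.mul_const M) (fun n => .of_forall fun w => ?_) (.of_forall fun w => ?_)
    · rw [norm_neg, norm_mul, Real.norm_of_nonneg (by positivity)]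
      exact mul_le_mul_of_nonneg_left (hM _) (by positivity)
    · refine (Tendsto.const_mul _ ((hg.continuous.tendsto 0).comp ?_)).neg
      simpa using hε0.smul_const w
  have h := tendsto_nhds_unique t1 (t2.congr fun n => (e1 _ (hε n)).symm)
  rw [h, integral_neg, integral_mul_const, c0]

/-- With `N ε y = (ε² + ‖y‖²) ^ (-1/2)`: `∫ N ε (x - y) Δg (y) = ∫ Δ N ε (x - y) g y = -∫ 3 (1 + ‖z‖²) ^ (-5/2)
g (x - ε z) dz` (two integrations by parts, `lap_reg`, scaling); dominated convergence on both sides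
(`‖·‖⁻¹` is locally integrable: `integrableOn_ball_rpow..`, `locallyIntegrable_norm_rpow`-like lemmas). -/
theorem newton {g : E3 → ℝ} (hg : ContDiff ℝ 2 g) (hc : HasCompactSupport g) (x : E3) :
    pot (lap g) x = -(c0 * g x) := by
  have hg' : ContDiff ℝ 2 fun z => g (x + z) := hg.comp (contDiff_const.add contDiff_id)
  have hc' : HasCompactSupport fun z => g (x + z) := hc.comp_homeomorph (Homeomorph.addLeft x)
  have hD : ∀ (i : Fin 3) (f : E3 → ℝ), newtD i (fun z => f (x + z)) = fun z => newtD i f (x + z) :=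
    fun i f => funext fun z => by rw [newtD, newtD, fderiv_comp_add_left]
  have h := newt_zero hg' hc'
  simp only [add_zero] at h
  rw [← h, pot, ← integral_add_left_eq_self _ x]
  refine integral_congr_ae (.of_forall fun z => ?_)
  simp only [newt_lap hg, newt_lap hg', hD]
  rw [sub_add_cancel_left, norm_neg, mul_comm]

theorem newt_pot_eq (g : E3 → ℝ) :
    pot g = MeasureTheory.convolution (fun z : E3 => ‖z‖⁻¹) g (ContinuousLinearMap.mul ℝ ℝ) volume := by
  funext x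
  rw [convolution_eq_swap, pot]
  simp only [ContinuousLinearMap.mul_apply', mul_comm]

theorem newt_D_pot {g : E3 → ℝ} (hg : ContDiff ℝ 1 g) (hc : HasCompactSupport g) (i : Fin 3) :
    newtD i (pot g) = pot (newtD i g) := by
  funext x
  rw [newt_pot_eq, newt_pot_eq, newtD, (hc.hasFDerivAt_convolution_right _ newt_locInt hg x).fderiv,
    convolution_precompR_apply _ newt_locInt (hc.fderiv ℝ) (hg.continuous_fderiv (by simp))]
  rfl

theorem newt_pot_int {g : E3 → ℝ} (hg : Continuous g) (hc : HasCompactSupport g) (x : E3) :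
    Integrable fun y => g y * ‖x - y‖⁻¹ := by
  have := hc.convolutionExists_left (ContinuousLinearMap.mul ℝ ℝ) hg newt_locInt x
  simpa only [ConvolutionExistsAt, ContinuousLinearMap.mul_apply'] using this

/-- `pot g = g ⋆ ‖·‖⁻¹`: `HasCompactSupport.contDiff_convolution_left`, `hasFDerivAt_convolution_left` -/
theorem pot_c2 {g : E3 → ℝ} (hg : ContDiff ℝ 2 g) (hc : HasCompactSupport g) :
    ContDiff ℝ 2 (pot g) ∧ ∀ x, lap (pot g) x = -(c0 * g x) := by
  have h1 : ContDiff ℝ 2 (pot g) := by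
    rw [newt_pot_eq]
    exact hc.contDiff_convolution_right _ newt_locInt hg
  refine ⟨h1, fun x => ?_⟩
  rw [← newton hg hc, newt_lap h1, pot]
  simp only [newt_lap hg, Finset.sum_mul]
  rw [integral_finsetSum _ fun i _ => newt_pot_int (newt_D_cont (newt_D_c1 hg i) i)
    (newt_D_cpt (newt_D_cpt hc i) i) x]
  refine Finset.sum_congr rfl fun i _ => ?_
  rw [newt_D_pot (hg.of_le (by norm_num)) hc, newt_D_pot (newt_D_c1 hg i) (newt_D_cpt hc i), pot]

end Crest.Agent.R83
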