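import Mathlib

/-!
# R83 (S0111, Calderón non-uniqueness): definitions.  DO NOT CHANGE (owner helper26).

Overview.  A *cluster* `Dat c C M γ φ` is a conductivity `γ` (equal to `1` off the ellipsoid `El`) with a
probability density `φ`.  `Mrg` says that the cluster `(γ', φ')` contains two similar copies (maps `T i`) of
`(γ, φ)`, and that `hat φ false - hat φ true` and `hat φ false - φ'` are the sources of compactly supported fields.
Then every `γ'`-harmonic function has the same mean for all these densities; an infinite tower of clusters gives a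
Cantor set of positive capacity on which every solution `u` is constant (`= k`) and a bounded compactly supported
field `p` whose source lives on this set; `(1 + ε p) ^ 2 γ` has the solutions `(u - k) / (1 + ε p) + k`.
-/

set_option autoImplicit false

namespace Crest.Agent.R83

open MeasureTheory Set Filter Topology
open scoped Gradient RealInnerProductSpace ENNReal

abbrev E3 : Type := EuclideanSpace ℝ (Fin 3)

/-- standard basis -/
noncomputable abbrev e (i : Fin 3) : E3 := EuclideanSpace.single i 1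

/-! ### function spaces -/

/-- `C¹` functions with compact support in `Ω` -/
structure Test (Ω : Set E3) (ψ : E3 → ℝ) : Prop where
  c1 : ContDiff ℝ 1 ψ
  cpt : HasCompactSupport ψ
  sub : tsupport ψ ⊆ Ω

/-- `(u, G)` is in the closure of `{(ψ, ∇ψ) | Test Ω ψ}` in `L⁶ × L²` -/
structure H0 (Ω : Set E3) (u : E3 → ℝ) (G : E3 → E3) : Prop where
  mu : MemLp u 6 volume
  mG : MemLp G 2 volume
  apx : ∀ ε : ℝ≥0∞, 0 < ε → ∃ ψ, Test Ω ψ ∧ eLpNorm (fun x => u x - ψ x) 6 volume ≤ ε ∧
    eLpNorm (fun x => G x - ∇ ψ x) 2 volume ≤ ε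

/-- `div J = -f` weakly in `Ω` -/
def WD (Ω : Set E3) (J : E3 → E3) (f : E3 → ℝ) : Prop :=
  ∀ ψ, Test Ω ψ → ∫ x, ⟪J x, ∇ ψ x⟫ = ∫ x, f x * ψ x

/-- local version: `u ∈ H¹_loc(Ω)` with gradient `G`, `J, f ∈ L²_loc(Ω)`, `div J = -f` in `Ω` -/
structure Loc (Ω : Set E3) (u : E3 → ℝ) (G J : E3 → E3) (f : E3 → ℝ) : Prop where
  h0 : ∀ ψ, Test Ω ψ → H0 Ω (fun x => ψ x * u x) fun x => ψ x • G x + u x • ∇ ψ x
  mJ : ∀ ψ, Test Ω ψ → MemLp (fun x => ψ x • J x) 2 volume
  mf : ∀ ψ, Test Ω ψ → MemLp (fun x => ψ x * f x) 2 volume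
  wd : WD Ω J f

/-- measurable, bounded by `M`, zero off `K` -/
structure Bd (K : Set E3) (M : ℝ) (f : E3 → ℝ) : Prop where
  meas : Measurable f
  bdd : ∀ x, |f x| ≤ M
  off : ∀ x, x ∉ K → f x = 0

/-- integrable with `L¹` norm at most `M`, zero off `K` -/
structure L1 (K : Set E3) (M : ℝ) (f : E3 → ℝ) : Prop where
  int : Integrable f volume
  le : ∫ y, |f y| ≤ M
  off : ∀ x, x ∉ K → f x = 0

/-- measurable, bounded, with bounded support -/
def Src (f : E3 → ℝ) : Prop := ∃ R M : ℝ, Bd (Metric.ball 0 R) M f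

/-- densities of total mass `m` -/
def Den (K : Set E3) (M m : ℝ) (f : E3 → ℝ) : Prop := Bd K M f ∧ ∫ y, f y = m

/-- ellipticity -/
structure Ell (c C : ℝ) (γ : E3 → ℝ) : Prop where
  meas : Measurable γ
  le : ∀ x, c ≤ γ x
  ge : ∀ x, γ x ≤ C

/-! ### similarities -/

/-- the similarity `x ↦ a + s • R x` -/
structure Sim where
  a : E3
  s : ℝ
  pos : 0 < s
  R : E3 ≃ₗᵢ[ℝ] E3

namespace Sim

noncomputable def toFun (T : Sim) (x : E3) : E3 := T.a + T.s • T.R x

noncomputable instance : CoeFun Sim fun _ => E3 → E3 := ⟨toFun⟩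

/-- the inverse similarity -/
noncomputable def inv (T : Sim) : Sim :=
  ⟨-(T.s⁻¹ • T.R.symm T.a), T.s⁻¹, inv_pos.2 T.pos, T.R.symm⟩

/-- pull-back of vector fields: `∇ (u ∘ T) = T.pG (∇ u)` -/
noncomputable def pG (T : Sim) (G : E3 → E3) (x : E3) : E3 := T.s • T.R.symm (G (T x))

end Sim

/-! ### pointwise algebra -/

noncomputable def cross (a b : E3) : E3 :=
  !₂[a 1 * b 2 - a 2 * b 1, a 2 * b 0 - a 0 * b 2, a 0 * b 1 - a 1 * b 0]

/-- the cone condition for a subsolution -/
def cone (κ : ℝ) (E J : E3) : Prop := κ * (‖E‖ ^ 2 + ‖J‖ ^ 2) ≤ ⟪E, J⟫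

/-- the defect `‖E × J‖` -/
noncomputable def dfc (E J : E3) : ℝ := √(‖E‖ ^ 2 * ‖J‖ ^ 2 - ⟪E, J⟫ ^ 2)

/-- `‖J + i E‖ ^ 2` -/
noncomputable def omg (E J : E3) : ℝ := ‖E‖ ^ 2 + ‖J‖ ^ 2 + 2 * dfc E J

/-- equicontinuity of a family at every point of `U` -/
def Eqc {ι V : Type} [NormedAddCommGroup V] (U : Set E3) (w : ι → E3 → V) : Prop :=
  ∀ x ∈ U, ∀ ε : ℝ, 0 < ε → ∃ δ : ℝ, 0 < δ ∧ ∀ z x', dist x' x < δ → ‖w z x' - w z x‖ ≤ ε

/-! ### pull-backs -/

noncomputable def jac (F : E3 → E3) (x : E3) : Matrix (Fin 3) (Fin 3) ℝ :=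
  Matrix.of fun i j => fderiv ℝ F x (e j) i

/-- transposed Jacobian (pull-back of gradients) -/
noncomputable def tr (F : E3 → E3) (x : E3) (a : E3) : E3 :=
  WithLp.toLp 2 ((jac F x).transpose.mulVec a.ofLp)

/-- adjugate of the Jacobian (pull-back of fluxes) -/
noncomputable def ad (F : E3 → E3) (x : E3) (b : E3) : E3 :=
  WithLp.toLp 2 ((jac F x).adjugate.mulVec b.ofLp)

/-- Piola transform -/
noncomputable def pb (F B : E3 → E3) (x : E3) : E3 := ad F x (B (F x))

noncomputable def dvg (B : E3 → E3) (x : E3) : ℝ := ∑ i, fderiv ℝ B x (e i) i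

noncomputable def lap (g : E3 → ℝ) (x : E3) : ℝ := dvg (∇ g) x

/-- field of a point charge -/
noncomputable def Bf (y : E3) : E3 := (‖y‖ ^ 3)⁻¹ • y

/-- gradient of the argument of a unimodular function -/
noncomputable def om (U : E3 → ℂ) (x : E3) : E3 :=
  (U x).re • ∇ (fun y => (U y).im) x - (U x).im • ∇ (fun y => (U y).re) x

/-- `= 4 π` (the value is not needed) -/
noncomputable def c0 : ℝ := ∫ y : E3, 3 * (1 + ‖y‖ ^ 2) ^ (-(5 / 2) : ℝ)

/-- Newton potential of a density -/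
noncomputable def pot (f : E3 → ℝ) (x : E3) : ℝ := ∫ y, f y * ‖x - y‖⁻¹

/-- minus the gradient of the Newton potential -/
noncomputable def fld (f : E3 → ℝ) (x : E3) : E3 := ∫ y, f y • Bf (x - y)

/-! ### geometry -/

noncomputable def Q (x : E3) : ℝ := (x 0 ^ 2 + x 1 ^ 2) / 2 + x 2 ^ 2

/-- the ellipsoid -/
def El : Set E3 := {x | Q x < 1}

/-- support of the densities representing the exterior potential -/
def K0 : Set E3 := {x | Q x ≤ 104 / 100}

noncomputable def σ : ℝ := 11 / 20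

/-- signs of the two children -/
def sg (i : Bool) : ℝ := if i then -1 else 1

/-- centres of the two children -/
noncomputable def ctr (i : Bool) : E3 := (sg i * (3 / 5)) • e 0

/-- exchange of the coordinates `0` and `2` -/
noncomputable def sw : E3 ≃ₗᵢ[ℝ] E3 := LinearIsometryEquiv.piLpCongrLeft 2 ℝ ℝ (Equiv.swap 0 2)

/-- the two children are `T i '' El` -/
noncomputable def T (i : Bool) : Sim := ⟨ctr i, σ, by norm_num [σ], sw⟩

/-- coordinates of the child -/
noncomputable def S (i : Bool) : Sim := (T i).inv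

/-- transport of densities to the child `i` -/
noncomputable def hat (i : Bool) (f : E3 → ℝ) (x : E3) : ℝ := (σ ^ 3)⁻¹ * f (S i x)

/-- transport of potentials to the child `i` -/
noncomputable def hatu (i : Bool) (u : E3 → ℝ) (x : E3) : ℝ := σ⁻¹ * u (S i x)

/-- transport of fields to the child `i` -/
noncomputable def hatG (i : Bool) (G : E3 → E3) (x : E3) : E3 := σ⁻¹ • (S i).pG G x

/-- the region outside both children, beyond the level `r` -/
def Out (r : ℝ) : Set E3 := {x | ∀ i, r < Q (S i x)}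

/-- clusters -/
structure Dat (c C M : ℝ) (γ φ : E3 → ℝ) : Prop where
  ell : Ell c C γ
  one : ∀ x, x ∉ El → γ x = 1
  den : Den El M 1 φ
  nn : ∀ x, 0 ≤ φ x

/-- `(γ', φ')` is built from two copies of `(γ, φ)` -/
structure Mrg (γ φ γ' φ' : E3 → ℝ) : Prop where
  inner : ∀ i, ∀ᵐ x, Q x ≤ 105 / 100 → γ' (T i x) = γ x
  exv : ∃ v G, H0 El v G ∧ WD univ (fun x => γ' x • G x) fun x => hat false φ x - hat true φ x
  exg : ∃ g G, H0 El g G ∧ WD univ (fun x => γ' x • G x) fun x => hat false φ x - φ' x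

end Crest.Agent.R83
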