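import Crest.Agent.R83.Sym

/-!
# R83 TASK H0a: the space `H0`: linear structure, Sobolev inequality, limits, integration by parts
-/

set_option autoImplicit false

namespace Crest.Agent.R83

open MeasureTheory Set Filter Topology
open scoped Gradient RealInnerProductSpace ENNReal NNReal ContDiff

variable {Ω Ω' O : Set E3} {ψ η u u' f w : E3 → ℝ} {G G' J : E3 → E3}

theorem h0a_triple1 : ENNReal.HolderTriple (6 / 5) 6 1 := by
  constructor
  rw [ENNReal.inv_div (by simp) (by simp), inv_one]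
  have h6 : (6 : ℝ≥0∞) ≠ 0 := by simp
  have h6' : (6 : ℝ≥0∞) ≠ ⊤ := by simp
  have : (5 : ℝ≥0∞) / 6 + 6⁻¹ = (5 + 1) / 6 := by
    rw [ENNReal.add_div, one_div]
  rw [this]
  norm_num
  exact ENNReal.div_self h6 h6'

theorem h0a_triple2 : ENNReal.HolderTriple 6 3 2 := by
  constructor
  have h : ((6 : ℝ≥0)⁻¹ + (3 : ℝ≥0)⁻¹ : ℝ≥0) = (2 : ℝ≥0)⁻¹ := by
    apply NNReal.eq; push_cast; norm_num
  have h' := congrArg (fun t : ℝ≥0 => (t : ℝ≥0∞)) h
  simpa [ENNReal.coe_inv] using h'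

/-- sequential description of `H0` -/
theorem h0a_of_seq (hu : MemLp u 6 volume) (hG : MemLp G 2 volume) {φ : ℕ → E3 → ℝ}
    (hφ : ∀ n, Test Ω (φ n))
    (h1 : Tendsto (fun n => eLpNorm (fun x => u x - φ n x) 6 volume) atTop (𝓝 0))
    (h2 : Tendsto (fun n => eLpNorm (fun x => G x - ∇ (φ n) x) 2 volume) atTop (𝓝 0)) :
    H0 Ω u G := by
  refine ⟨hu, hG, fun ε hε => ?_⟩
  obtain ⟨n, hn1, hn2⟩ := ((ENNReal.tendsto_nhds_zero.1 h1 ε hε).and
    (ENNReal.tendsto_nhds_zero.1 h2 ε hε)).exists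
  exact ⟨φ n, hφ n, hn1, hn2⟩

theorem h0a_seq (h : H0 Ω u G) : ∃ φ : ℕ → E3 → ℝ, (∀ n, Test Ω (φ n)) ∧
    Tendsto (fun n => eLpNorm (fun x => u x - φ n x) 6 volume) atTop (𝓝 0) ∧
    Tendsto (fun n => eLpNorm (fun x => G x - ∇ (φ n) x) 2 volume) atTop (𝓝 0) := by
  have hpos : ∀ n : ℕ, (0 : ℝ≥0∞) < ((n : ℝ≥0∞))⁻¹ := fun n => ENNReal.inv_pos.2 (by simp)
  choose φ h1 h2 h3 using fun n : ℕ => h.apx _ (hpos n)
  refine ⟨φ, h1, ?_, ?_⟩
  · exact tendsto_of_tendsto_of_tendsto_of_le_of_le tendsto_const_nhds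
      ENNReal.tendsto_inv_nat_nhds_zero (fun _ => zero_le) h2
  · exact tendsto_of_tendsto_of_tendsto_of_le_of_le tendsto_const_nhds
      ENNReal.tendsto_inv_nat_nhds_zero (fun _ => zero_le) h3

theorem h0a_tri {V : Type} [NormedAddCommGroup V] {p : ℝ≥0∞} (hp : 1 ≤ p) {a b c : E3 → V}
    (ha : AEStronglyMeasurable a volume) (hb : AEStronglyMeasurable b volume)
    (hc : ∀ x, c x = a x + b x) :
    eLpNorm c p volume ≤ eLpNorm a p volume + eLpNorm b p volume := by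
  have : c = a + b := funext hc
  rw [this]
  exact eLpNorm_add_le ha hb hp

theorem Test.h0 (h : Test Ω ψ) : H0 Ω ψ (∇ ψ) :=
  ⟨h.memLp 6, h.memLp_grad 2, fun ε _ => ⟨ψ, h, by simp, by simp⟩⟩

theorem H0.mono (h : H0 Ω u G) (hΩ : Ω ⊆ Ω') : H0 Ω' u G :=
  ⟨h.mu, h.mG, fun ε hε => by
    obtain ⟨φ, h1, h2⟩ := h.apx ε hε
    exact ⟨φ, h1.mono hΩ, h2⟩⟩

theorem H0.congr (h : H0 Ω u G) (hu : u =ᵐ[volume] u') (hG : G =ᵐ[volume] G') : H0 Ω u' G' := by
  refine ⟨h.mu.ae_eq hu, h.mG.ae_eq hG, fun ε hε => ?_⟩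
  obtain ⟨φ, h1, h2, h3⟩ := h.apx ε hε
  refine ⟨φ, h1, le_of_eq_of_le (eLpNorm_congr_ae ?_) h2, le_of_eq_of_le (eLpNorm_congr_ae ?_) h3⟩
  · filter_upwards [hu] with x hx using by rw [hx]
  · filter_upwards [hG] with x hx using by rw [hx]

theorem H0.zero (Ω : Set E3) : H0 Ω (fun _ => 0) fun _ => 0 := by
  refine (Test.zero Ω).h0.congr (EventuallyEq.refl _ _) (Eventually.of_forall fun x => ?_)
  simp

theorem H0.add (h : H0 Ω u G) (h' : H0 Ω u' G') :
    H0 Ω (fun x => u x + u' x) fun x => G x + G' x := by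
  obtain ⟨φ, a1, a2, a3⟩ := h0a_seq h
  obtain ⟨φ', b1, b2, b3⟩ := h0a_seq h'
  refine h0a_of_seq (φ := fun n x => φ n x + φ' n x) (h.mu.add h'.mu) (h.mG.add h'.mG)
    (fun n => (a1 n).add (b1 n)) ?_ ?_
  · refine tendsto_of_tendsto_of_tendsto_of_le_of_le tendsto_const_nhds
      (by simpa using a2.add b2) (fun _ => zero_le) fun n => ?_
    exact h0a_tri (by norm_num) (h.mu.sub ((a1 n).memLp 6)).1 (h'.mu.sub ((b1 n).memLp 6)).1
      fun x => by ring
  · refine tendsto_of_tendsto_of_tendsto_of_le_of_le tendsto_const_nhds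
      (by simpa using a3.add b3) (fun _ => zero_le) fun n => ?_
    refine h0a_tri (by norm_num) (h.mG.sub ((a1 n).memLp_grad 2)).1
      (h'.mG.sub ((b1 n).memLp_grad 2)).1 fun x => ?_
    rw [grad_add ((a1 n).differentiable x) ((b1 n).differentiable x)]
    abel

theorem H0.smul (h : H0 Ω u G) (c : ℝ) : H0 Ω (fun x => c * u x) fun x => c • G x := by
  obtain ⟨φ, a1, a2, a3⟩ := h0a_seq h
  refine h0a_of_seq (φ := fun n x => c * φ n x) (h.mu.const_mul c) (h.mG.const_smul c)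
    (fun n => (a1 n).const_mul c) ?_ ?_
  · have := ENNReal.Tendsto.const_mul (a := ‖c‖ₑ) a2 (Or.inr (by simp))
    rw [mul_zero] at this
    refine this.congr fun n => ?_
    rw [← eLpNorm_const_smul]
    congr 1
    funext x
    simp only [Pi.smul_apply, smul_eq_mul]; ring
  · have := ENNReal.Tendsto.const_mul (a := ‖c‖ₑ) a3 (Or.inr (by simp))
    rw [mul_zero] at this
    refine this.congr fun n => ?_
    rw [← eLpNorm_const_smul]
    congr 1
    funext x
    rw [grad_const_mul c ((a1 n).differentiable x)]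
    simp only [Pi.smul_apply, smul_sub]

theorem H0.sub (h : H0 Ω u G) (h' : H0 Ω u' G') :
    H0 Ω (fun x => u x - u' x) fun x => G x - G' x := by
  have := h.add (h'.smul (-1))
  simpa [sub_eq_add_neg] using this

theorem h0a_subseq {V : Type} [NormedAddCommGroup V] {p : ℝ≥0∞} (hp : p ≠ 0) {a : ℕ → E3 → V}
    {b : E3 → V} (ha : ∀ n, AEStronglyMeasurable (a n) volume) (hb : AEStronglyMeasurable b volume)
    (h : Tendsto (fun n => eLpNorm (fun x => b x - a n x) p volume) atTop (𝓝 0)) :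
    ∃ ns : ℕ → ℕ, StrictMono ns ∧ ∀ᵐ x, Tendsto (fun i => a (ns i) x) atTop (𝓝 (b x)) := by
  refine (tendstoInMeasure_of_tendsto_eLpNorm hp ha hb ?_).exists_seq_tendsto_ae
  refine h.congr fun n => ?_
  exact eLpNorm_sub_comm b (a n) p volume

/-- an approximating sequence that also converges almost everywhere
(`TendstoInMeasure.exists_seq_tendsto_ae`, or take errors `≤ 2 ^ (-n)`) -/
theorem H0.exists_seq (h : H0 Ω u G) : ∃ ψ : ℕ → E3 → ℝ, (∀ n, Test Ω (ψ n)) ∧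
    Tendsto (fun n => eLpNorm (fun x => u x - ψ n x) 6 volume) atTop (𝓝 0) ∧
    Tendsto (fun n => eLpNorm (fun x => G x - ∇ (ψ n) x) 2 volume) atTop (𝓝 0) ∧
    ∀ᵐ x, Tendsto (fun n => ψ n x) atTop (𝓝 (u x)) ∧ Tendsto (fun n => ∇ (ψ n) x) atTop (𝓝 (G x)) := by
  obtain ⟨φ, a1, a2, a3⟩ := h0a_seq h
  obtain ⟨ns, hns, h1⟩ := h0a_subseq (by norm_num) (fun n => ((a1 n).memLp 6).1) h.mu.1 a2
  obtain ⟨ms, hms, h2⟩ := h0a_subseq (a := fun n => ∇ (φ (ns n))) (by norm_num)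
    (fun n => ((a1 (ns n)).memLp_grad 2).1) h.mG.1 (a3.comp hns.tendsto_atTop)
  refine ⟨fun n => φ (ns (ms n)), fun n => a1 _, a2.comp (hns.comp hms).tendsto_atTop,
    a3.comp (hns.comp hms).tendsto_atTop, ?_⟩
  filter_upwards [h1, h2] with x hx1 hx2
  exact ⟨hx1.comp hms.tendsto_atTop, hx2⟩

/-- `eLpNorm_le_eLpNorm_fderiv_of_eq_inner` -/
theorem exists_sobolev : ∃ Cs : ℝ≥0, ∀ {Ω : Set E3} {u : E3 → ℝ} {G : E3 → E3}, H0 Ω u G →
    eLpNorm u 6 volume ≤ Cs * eLpNorm G 2 volume := by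
  obtain ⟨C, hC⟩ : ∃ C : ℝ≥0, C = eLpNormLESNormFDerivOfEqInnerConst (volume : Measure E3) 2 :=
    ⟨_, rfl⟩
  refine ⟨C, ?_⟩
  intro Ω u G h
  have key : ∀ φ : E3 → ℝ, Test Ω φ → eLpNorm φ 6 volume ≤ C * eLpNorm (∇ φ) 2 volume := by
    intro φ hφ
    have h1 := eLpNorm_le_eLpNorm_fderiv_of_eq_inner (volume : Measure E3) hφ.c1 hφ.cpt
      (p := 2) (p' := 6) (by norm_num) (by simp) (by simp; norm_num)
    have h2 : eLpNorm (fderiv ℝ φ) 2 volume = eLpNorm (∇ φ) 2 volume :=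
      eLpNorm_congr_norm_ae (Eventually.of_forall fun x => (norm_grad φ x).symm)
    rw [← h2, hC]
    simpa using h1
  obtain ⟨φ, a1, a2, a3⟩ := h0a_seq h
  have hlim : Tendsto (fun n => eLpNorm (fun x => u x - φ n x) 6 volume +
      C * (eLpNorm G 2 volume + eLpNorm (fun x => G x - ∇ (φ n) x) 2 volume)) atTop
      (𝓝 (0 + C * (eLpNorm G 2 volume + 0))) :=
    a2.add (ENNReal.Tendsto.const_mul (tendsto_const_nhds.add a3) (Or.inr (by simp)))
  rw [zero_add, add_zero] at hlim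
  refine ge_of_tendsto' hlim fun n => ?_
  refine (h0a_tri (a := fun x => u x - φ n x) (b := φ n) (by norm_num)
    (h.mu.sub ((a1 n).memLp 6)).1 ((a1 n).memLp 6).1 fun x => by ring).trans ?_
  gcongr
  refine (key _ (a1 n)).trans ?_
  gcongr
  have hm := (h.mG.sub ((a1 n).memLp_grad 2)).1
  refine (h0a_tri (a := G) (b := -fun x => G x - ∇ (φ n) x) (by norm_num) h.mG.1 hm.neg
    fun x => by simp).trans ?_
  rw [eLpNorm_neg]

theorem H0.zero_off (h : H0 Ω u G) : ∀ᵐ x, x ∉ Ω → u x = 0 ∧ G x = 0 := by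
  obtain ⟨φ, a1, -, -, a4⟩ := h.exists_seq
  filter_upwards [a4] with x hx hxΩ
  have h1 : ∀ n, φ n x = 0 ∧ ∇ (φ n) x = 0 := fun n => (a1 n).eq_zero hxΩ
  obtain ⟨b1, b2⟩ := hx
  simp only [fun n => (h1 n).1] at b1
  simp only [fun n => (h1 n).2] at b2
  exact ⟨(tendsto_nhds_unique tendsto_const_nhds b1).symm,
    (tendsto_nhds_unique tendsto_const_nhds b2).symm⟩

/-- `H0` is closed -/
theorem h0a_closed (hu : MemLp u 6 volume) (hG : MemLp G 2 volume) {v : ℕ → E3 → ℝ}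
    {K : ℕ → E3 → E3} (hv : ∀ n, H0 Ω (v n) (K n))
    (h1 : Tendsto (fun n => eLpNorm (fun x => u x - v n x) 6 volume) atTop (𝓝 0))
    (h2 : Tendsto (fun n => eLpNorm (fun x => G x - K n x) 2 volume) atTop (𝓝 0)) :
    H0 Ω u G := by
  refine ⟨hu, hG, fun ε hε => ?_⟩
  have hε2 : 0 < ε / 2 := ENNReal.half_pos hε.ne'
  obtain ⟨n, hn1, hn2⟩ := ((ENNReal.tendsto_nhds_zero.1 h1 _ hε2).and
    (ENNReal.tendsto_nhds_zero.1 h2 _ hε2)).exists
  obtain ⟨φ, a1, a2, a3⟩ := (hv n).apx _ hε2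
  refine ⟨φ, a1, ?_, ?_⟩
  · refine (h0a_tri (a := fun x => u x - v n x) (b := fun x => v n x - φ x) (by norm_num)
      (hu.sub (hv n).mu).1 ((hv n).mu.sub (a1.memLp 6)).1 fun x => by ring).trans ?_
    exact (add_le_add hn1 a2).trans_eq (ENNReal.add_halves ε)
  · refine (h0a_tri (a := fun x => G x - K n x) (b := fun x => K n x - ∇ φ x) (by norm_num)
      (hG.sub (hv n).mG).1 ((hv n).mG.sub (a1.memLp_grad 2)).1 fun x => by abel).trans ?_
    exact (add_le_add hn2 a3).trans_eq (ENNReal.add_halves ε)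

/-- `u n` is Cauchy in `L⁶` by the Sobolev inequality -/
theorem H0.exists_lim {u : ℕ → E3 → ℝ} {G : ℕ → E3 → E3} (h : ∀ n, H0 Ω (u n) (G n))
    (hG : MemLp G' 2 volume)
    (ht : Tendsto (fun n => eLpNorm (fun x => G' x - G n x) 2 volume) atTop (𝓝 0)) :
    ∃ u', H0 Ω u' G' ∧ ∀ M : ℝ, (∀ n, ∀ᵐ x, |u n x| ≤ M) → ∀ᵐ x, |u' x| ≤ M := by
  have : Fact ((1 : ℝ≥0∞) ≤ 6) := ⟨by norm_num⟩
  obtain ⟨C, hC⟩ := exists_sobolev
  set a : ℕ → ℝ≥0∞ := fun n => C * eLpNorm (fun x => G' x - G n x) 2 volume with ha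
  have ha0 : Tendsto a atTop (𝓝 0) := by
    have := ENNReal.Tendsto.const_mul (a := (C : ℝ≥0∞)) ht (Or.inr (by simp))
    rwa [mul_zero] at this
  let U : ℕ → Lp ℝ 6 (volume : Measure E3) := fun n => (h n).mu.toLp (u n)
  have hd : ∀ m n, edist (U m) (U n) ≤ a m + a n := by
    intro m n
    rw [Lp.edist_toLp_toLp]
    refine (hC ((h m).sub (h n))).trans ?_
    simp only [ha, ← mul_add]
    gcongr
    have hm := (hG.sub (h m).mG).1
    refine (h0a_tri (a := -fun x => G' x - G m x) (b := fun x => G' x - G n x) (by norm_num) hm.neg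
      (hG.sub (h n).mG).1 fun x => by simp).trans ?_
    rw [eLpNorm_neg]
  have hc : CauchySeq U := by
    rw [EMetric.cauchySeq_iff]
    intro ε hε
    have hε2 : 0 < ε / 2 := ENNReal.half_pos hε.ne'
    obtain ⟨N, hN⟩ := eventually_atTop.1 (ha0.eventually (gt_mem_nhds hε2))
    refine ⟨N, fun m hm n hn => (hd m n).trans_lt ?_⟩
    exact (ENNReal.add_lt_add (hN m hm) (hN n hn)).trans_eq (ENNReal.add_halves ε)
  obtain ⟨V, hV⟩ := cauchySeq_tendsto_of_complete hc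
  have hlim : Tendsto (fun n => eLpNorm (fun x => V x - u n x) 6 volume) atTop (𝓝 0) := by
    refine ((Lp.tendsto_Lp_iff_tendsto_eLpNorm' U V).1 hV).congr fun n => ?_
    rw [eLpNorm_sub_comm]
    refine eLpNorm_congr_ae ?_
    filter_upwards [(h n).mu.coeFn_toLp] with x hx
    simp only [Pi.sub_apply, U, hx]
  refine ⟨V, h0a_closed (Lp.memLp V) hG h hlim ht, fun M hM => ?_⟩
  obtain ⟨ns, -, h1⟩ := h0a_subseq (by norm_num) (fun n => (h n).mu.1) (Lp.memLp V).1 hlim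
  filter_upwards [h1, ae_all_iff.2 hM] with x hx hx'
  exact le_of_tendsto' hx.abs fun n => hx' _

/-- Hölder's inequality and continuity of pairings -/
theorem h0a_pair {V W : Type} [NormedAddCommGroup V] [NormedAddCommGroup W] [NormedSpace ℝ V]
    [NormedSpace ℝ W] (B : V →L[ℝ] W →L[ℝ] ℝ) (hB : ∀ a b, ‖B a b‖ ≤ ‖a‖ * ‖b‖) {p q : ℝ≥0∞}
    [ENNReal.HolderTriple p q 1] {a : E3 → V} {b : E3 → W} (ha : MemLp a p volume)
    (hb : MemLp b q volume) :
    Integrable (fun x => B (a x) (b x)) volume ∧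
      ‖∫ x, B (a x) (b x)‖ₑ ≤ eLpNorm a p volume * eLpNorm b q volume := by
  have hbd : ∀ᵐ x : E3, ‖B (a x) (b x)‖₊ ≤ 1 * ‖a x‖₊ * ‖b x‖₊ :=
    Eventually.of_forall fun x => by
      rw [one_mul, ← NNReal.coe_le_coe]; exact hB _ _
  have hm : AEStronglyMeasurable (fun x => B (a x) (b x)) volume :=
    B.aestronglyMeasurable_comp₂ ha.1 hb.1
  refine ⟨memLp_one_iff_integrable.1 (MemLp.of_bilin (fun s t => B s t) 1 ha hb hm hbd), ?_⟩
  refine (enorm_integral_le_lintegral_enorm _).trans ?_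
  rw [← eLpNorm_one_eq_lintegral_enorm]
  simpa using eLpNorm_le_eLpNorm_mul_eLpNorm_of_nnnorm (p := p) (q := q) (r := 1) ha.1 hb.1
    (fun s t => B s t) 1 hbd

theorem h0a_pair_lim {V W : Type} [NormedAddCommGroup V] [NormedAddCommGroup W] [NormedSpace ℝ V]
    [NormedSpace ℝ W] (B : V →L[ℝ] W →L[ℝ] ℝ) (hB : ∀ a b, ‖B a b‖ ≤ ‖a‖ * ‖b‖) {p q : ℝ≥0∞}
    [ENNReal.HolderTriple p q 1] {a : E3 → V} {b : E3 → W} {c : ℕ → E3 → W} (ha : MemLp a p volume)
    (hb : MemLp b q volume) (hc : ∀ n, MemLp (c n) q volume)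
    (h : Tendsto (fun n => eLpNorm (fun x => b x - c n x) q volume) atTop (𝓝 0)) :
    Tendsto (fun n => ∫ x, B (a x) (c n x)) atTop (𝓝 (∫ x, B (a x) (b x))) := by
  rw [tendsto_iff_edist_tendsto_0]
  have h0 := ENNReal.Tendsto.const_mul (a := eLpNorm a p volume) h (Or.inr ha.2.ne)
  rw [mul_zero] at h0
  refine tendsto_of_tendsto_of_tendsto_of_le_of_le tendsto_const_nhds h0 (fun _ => zero_le)
    fun n => ?_
  have h1 := (h0a_pair B hB ha (hb.sub (hc n))).2
  simp only [Pi.sub_apply, map_sub] at h1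
  rw [integral_sub (h0a_pair B hB ha hb).1 (h0a_pair B hB ha (hc n)).1] at h1
  rw [edist_comm, edist_eq_enorm_sub]
  exact h1

theorem h0a_innerB (a b : E3) : ‖innerSL ℝ a b‖ ≤ ‖a‖ * ‖b‖ := by
  simpa using abs_real_inner_le_norm a b

theorem h0a_mulB (a b : ℝ) : ‖ContinuousLinearMap.mul ℝ ℝ a b‖ ≤ ‖a‖ * ‖b‖ := by
  simp

theorem h0a_int_inner (hJ : MemLp J 2 volume) (hG : MemLp G 2 volume) :
    Integrable (fun x => ⟪J x, G x⟫) volume :=
  (h0a_pair (innerSL ℝ) h0a_innerB hJ hG).1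

theorem h0a_int_mul (hf : MemLp f (6 / 5) volume) (hu : MemLp u 6 volume) :
    Integrable (fun x => f x * u x) volume := by
  have := h0a_triple1
  simpa using (h0a_pair (ContinuousLinearMap.mul ℝ ℝ) h0a_mulB hf hu).1

/-- Hölder: both sides are continuous in `(u, G)` -/
theorem WD.ext' (hw : WD Ω J f) (hJ : MemLp J 2 volume) (hf : MemLp f (6 / 5) volume) (h : H0 Ω u G) :
    ∫ x, ⟪J x, G x⟫ = ∫ x, f x * u x := by
  have := h0a_triple1
  obtain ⟨φ, a1, a2, a3⟩ := h0a_seq h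
  have h1 : Tendsto (fun n => ∫ x, ⟪J x, ∇ (φ n) x⟫) atTop (𝓝 (∫ x, ⟪J x, G x⟫)) :=
    h0a_pair_lim (innerSL ℝ) h0a_innerB hJ h.mG (fun n => (a1 n).memLp_grad 2) a3
  have h2 := h0a_pair_lim (ContinuousLinearMap.mul ℝ ℝ) h0a_mulB hf h.mu
    (fun n => (a1 n).memLp 6) a2
  simp only [ContinuousLinearMap.mul_apply'] at h2
  simp only [fun n => hw _ (a1 n)] at h1
  exact tendsto_nhds_unique h1 h2

theorem WD.ext (hw : WD Ω J f) (hJ : MemLp J 2 volume) (hf : Src f) (h : H0 Ω u G) :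
    ∫ x, ⟪J x, G x⟫ = ∫ x, f x * u x :=
  hw.ext' hJ (hf.memLp _) h

theorem WD.add {J' : E3 → E3} {g : E3 → ℝ} (h : WD Ω J f) (h' : WD Ω J' g) (hJ : MemLp J 2 volume)
    (hJ' : MemLp J' 2 volume) (hf : Src f) (hg : Src g) :
    WD Ω (fun x => J x + J' x) fun x => f x + g x := by
  intro φ hφ
  simp only [inner_add_left, add_mul]
  rw [integral_add (h0a_int_inner hJ (hφ.memLp_grad 2)) (h0a_int_inner hJ' (hφ.memLp_grad 2)),
    integral_add (h0a_int_mul (hf.memLp _) (hφ.memLp 6)) (h0a_int_mul (hg.memLp _) (hφ.memLp 6)),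
    h φ hφ, h' φ hφ]

theorem h0a_smul_le {V : Type} [NormedAddCommGroup V] [NormedSpace ℝ V] {p q r : ℝ≥0∞}
    [ENNReal.HolderTriple p q r] {a : E3 → ℝ} {b : E3 → V} (ha : AEStronglyMeasurable a volume)
    (hb : AEStronglyMeasurable b volume) :
    eLpNorm (fun x => a x • b x) r volume ≤ eLpNorm a p volume * eLpNorm b q volume :=
  eLpNorm_smul_le_mul_eLpNorm hb ha

/-- approximate by `ψ * ψ n`; `L⁶ ⊆ L²` on the support of `∇ψ` -/
theorem H0.mul_test (h : H0 Ω u G) (hψ : Test Ω' ψ) :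
    H0 Ω' (fun x => ψ x * u x) fun x => ψ x • G x + u x • ∇ ψ x := by
  have := h0a_triple2
  obtain ⟨φ, a1, a2, a3⟩ := h0a_seq h
  have hb := hψ.memLp ∞
  have hg := hψ.memLp_grad 3
  have m1 : MemLp (fun x => ψ x • G x) 2 volume := MemLp.smul (p := ∞) h.mG hb
  have m2 : MemLp (fun x => u x • ∇ ψ x) 2 volume := MemLp.smul (p := 6) hg h.mu
  refine h0a_of_seq (φ := fun n x => ψ x * φ n x) (MemLp.mul' (p := ∞) h.mu hb) (m1.add m2)
    (fun n => (hψ.mul_test (a1 n)).mono inter_subset_left) ?_ ?_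
  · have h0 := ENNReal.Tendsto.const_mul (a := eLpNorm ψ ∞ volume) a2 (Or.inr hb.2.ne)
    rw [mul_zero] at h0
    refine tendsto_of_tendsto_of_tendsto_of_le_of_le tendsto_const_nhds h0 (fun _ => zero_le)
      fun n => ?_
    refine le_of_eq_of_le ?_ (h0a_smul_le (p := ∞) (q := 6) (r := 6)
      (b := fun x => u x - φ n x) hb.1 (h.mu.sub ((a1 n).memLp 6)).1)
    congr 1
    funext x
    simp only [smul_eq_mul]; ring
  · have h0 := ENNReal.Tendsto.const_mul (a := eLpNorm ψ ∞ volume) a3 (Or.inr hb.2.ne)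
    have h1 := ENNReal.Tendsto.mul_const (b := eLpNorm (∇ ψ) 3 volume) a2 (Or.inr hg.2.ne)
    have h2 := h0.add h1
    rw [mul_zero, zero_mul, add_zero] at h2
    refine tendsto_of_tendsto_of_tendsto_of_le_of_le tendsto_const_nhds h2 (fun _ => zero_le)
      fun n => ?_
    have k1 := (h.mG.sub ((a1 n).memLp_grad 2)).1
    have k2 := (h.mu.sub ((a1 n).memLp 6)).1
    refine (h0a_tri (a := fun x => ψ x • (G x - ∇ (φ n) x))
      (b := fun x => (u x - φ n x) • ∇ ψ x) (by norm_num) (hb.1.smul k1) (k2.smul hg.1)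
      fun x => ?_).trans (add_le_add ?_ ?_)
    · rw [grad_mul (hψ.differentiable x) ((a1 n).differentiable x), smul_sub, sub_smul]
      abel
    · exact h0a_smul_le (p := ∞) (q := 2) (r := 2) (b := fun x => G x - ∇ (φ n) x) hb.1 k1
    · exact h0a_smul_le (p := 6) (q := 3) (r := 2) (a := fun x => u x - φ n x) k2 hg.1

theorem h0a_memLp_inner (hη : Test Ω η) (a : E3) (p : ℝ≥0∞) :
    MemLp (fun x => ⟪∇ η x, a⟫) p volume := by
  refine Continuous.memLp_of_hasCompactSupport (hη.continuous_grad.inner continuous_const) ?_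
  refine hη.hasCompactSupport_grad.mono fun x hx h0 => hx ?_
  simp [h0]

theorem H0.ibp (h : H0 Ω u G) (hη : Test univ η) (a : E3) :
    ∫ x, η x * ⟪G x, a⟫ = -∫ x, u x * ⟪∇ η x, a⟫ := by
  have hw : WD Ω (fun x => η x • a) fun x => -⟪∇ η x, a⟫ := by
    intro φ hφ
    have h1 := integral_ibp isOpen_univ hη hφ.c1.contDiffOn a
    simp only [neg_mul, integral_neg, h1, neg_neg, inner_smul_left, conj_trivial]
    simp only [real_inner_comm]
  have hJ : MemLp (fun x => η x • a) 2 volume := by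
    refine Continuous.memLp_of_hasCompactSupport (hη.c1.continuous.smul continuous_const) ?_
    refine hη.cpt.mono fun x hx h0 => hx ?_
    simp [h0]
  have h2 := hw.ext' hJ (h0a_memLp_inner hη a _).neg h
  simp only [neg_mul, integral_neg, inner_smul_left, conj_trivial] at h2
  simp only [real_inner_comm a (G _), mul_comm (u _)]
  simpa only [real_inner_comm (G _) a] using h2

/-- vector form of `H0.ibp` -/
theorem H0.ibp_dvg (h : H0 Ω u G) {B : E3 → E3} (hB : ContDiff ℝ 1 B) (hc : HasCompactSupport B) :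
    ∫ x, ⟪G x, B x⟫ = -∫ x, u x * dvg B x := by
  have hw : WD Ω B fun x => -dvg B x := (wd_of_dvg isOpen_univ hB.contDiffOn).mono (subset_univ _)
  have hd : MemLp (dvg B) (6 / 5) volume := by
    refine Continuous.memLp_of_hasCompactSupport ?_ ?_
    · have := hB.continuous_fderiv one_ne_zero
      unfold dvg
      fun_prop
    · refine (hc.fderiv ℝ).mono fun x hx h0 => hx ?_
      simp [dvg, h0]
  have h2 := hw.ext' (hB.continuous.memLp_of_hasCompactSupport hc) hd.neg h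
  simp only [neg_mul, integral_neg] at h2
  simp only [mul_comm (u _)]
  rw [← h2]
  simp only [real_inner_comm]

/-- `H0.ibp`, `integral_ibp`, `IsOpen.ae_eq_zero_of_integral_contDiff_smul_eq_zero` -/
theorem H0.grad_eq (h : H0 Ω u G) (hO : IsOpen O) (hw : ContDiffOn ℝ 1 w O)
    (hu : ∀ᵐ x, x ∈ O → u x = w x) : ∀ᵐ x, x ∈ O → G x = ∇ w x := by
  have key : ∀ a : E3, ∀ᵐ x, x ∈ O → ⟪G x, a⟫ - ⟪∇ w x, a⟫ = 0 := by
    intro a
    have hGa : MemLp (fun x => ⟪G x, a⟫) 2 volume := h.mG.inner_const a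
    have hwa : ContinuousOn (fun x => ⟪∇ w x, a⟫) O :=
      (continuousOn_grad hO hw).inner continuousOn_const
    refine hO.ae_eq_zero_of_integral_contDiff_smul_eq_zero ?_ fun g hg hgc hgO => ?_
    · exact ((hGa.locallyIntegrable (by norm_num)).locallyIntegrableOn O).sub
        (hwa.locallyIntegrableOn hO.measurableSet)
    · have hgt : Test O g := ⟨hg.of_le (by simp), hgc, hgO⟩
      have i1 : Integrable (fun x => g x * ⟪G x, a⟫) volume :=
        memLp_one_iff_integrable.1 (MemLp.mul' (p := 2) hGa (hgt.memLp 2))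
      have i2 : Integrable (fun x => g x * ⟪∇ w x, a⟫) volume := by
        refine Continuous.integrable_of_hasCompactSupport ?_ hgc.mul_right
        refine continuous_of_tsupport fun x hx => ?_
        have hxO : x ∈ O := hgO (tsupport_mul_subset_left hx)
        exact hg.continuous.continuousAt.mul (hwa.continuousAt (hO.mem_nhds hxO))
      simp only [smul_eq_mul, mul_sub]
      rw [integral_sub i1 i2, h.ibp (hgt.mono (subset_univ _)) a]
      have h1 := integral_ibp hO hgt hw a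
      have h2 : ∫ x, u x * ⟪∇ g x, a⟫ = ∫ x, ⟪∇ g x, a⟫ * w x := by
        refine integral_congr_ae ?_
        filter_upwards [hu] with x hx
        by_cases hxO : x ∈ O
        · rw [hx hxO, mul_comm]
        · simp [(hgt.eq_zero hxO).2]
      rw [h2, h1]
      ring
  filter_upwards [ae_all_iff.2 fun i : Fin 3 => key (e i)] with x hx hxO
  ext i
  have := hx i hxO
  simp only [e, EuclideanSpace.inner_single_right, conj_trivial, one_mul] at this
  linarith

end Crest.Agent.R83
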