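import Crest.Agent.R83.PB

/-!
# R83 TASK Ker: superposition of kernels against integrable densities
-/

set_option autoImplicit false

namespace Crest.Agent.R83

open MeasureTheory Set Filter Topology
open scoped Gradient RealInnerProductSpace ENNReal NNReal ContDiff

variable {O K : Set E3} {M : ℝ} {f : E3 → ℝ}

theorem ker_integrable {V : Type} [NormedAddCommGroup V] [NormedSpace ℝ V] (hK : IsCompact K) (hf : L1 K M f)
    {k : E3 → V} (hk : ContinuousOn k K) : Integrable (fun y => f y • k y) volume := by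
  refine (hf.int.integrableOn.smul_continuousOn hk hK).integrable_of_forall_notMem_eq_zero fun y hy => ?_
  rw [hf.off y hy, zero_smul]

theorem ker_norm_le {V : Type} [NormedAddCommGroup V] [NormedSpace ℝ V] (hf : L1 K M f)
    {k : E3 → V} {N : ℝ} (hN : 0 ≤ N) (hk : ∀ y ∈ K, ‖k y‖ ≤ N) : ‖∫ y, f y • k y‖ ≤ M * N := by
  calc ‖∫ y, f y • k y‖ ≤ ∫ y, |f y| * N := by
        refine norm_integral_le_of_norm_le (hf.int.abs.mul_const N) (Eventually.of_forall fun y => ?_)
        by_cases hy : y ∈ K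
        · rw [norm_smul, Real.norm_eq_abs]
          exact mul_le_mul_of_nonneg_left (hk y hy) (abs_nonneg _)
        · simp [hf.off y hy]
    _ = (∫ y, |f y|) * N := integral_mul_const _ _
    _ ≤ M * N := mul_le_mul_of_nonneg_right hf.le hN

theorem ker_cont_fst {V : Type} [TopologicalSpace V] {A : Set E3} {k : E3 × E3 → V}
    (hk : ∀ y ∈ K, ∀ x ∈ A, ContinuousAt k (y, x)) {x : E3} (hx : x ∈ A) :
    ContinuousOn (fun y => k (y, x)) K := fun y hy =>
  (ContinuousAt.comp (f := fun y : E3 => (y, x)) (hk y hy x hx)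
    (continuousAt_id.prodMk continuousAt_const)).continuousWithinAt

/-- tube lemma (`IsCompact.eventually_forall_of_forall_eventually`) -/
theorem ker_eqc {V : Type} [NormedAddCommGroup V] [NormedSpace ℝ V] (hO : IsOpen O) (hK : IsCompact K)
    {k : E3 × E3 → V} (hk : ∀ y ∈ K, ∀ x ∈ O, ContinuousAt k (y, x)) (M : ℝ) :
    Eqc O fun (f : {f // L1 K M f}) x => ∫ y, f.1 y • k (y, x) := by
  intro x hx ε hε
  have hη : 0 < ε / (|M| + 1) := by positivity
  have h1 : ∀ᶠ x' in 𝓝 x, ∀ y ∈ K, ‖k (y, x') - k (y, x)‖ < ε / (|M| + 1) := by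
    refine hK.eventually_forall_of_forall_eventually
      (P := fun x' y => ‖k (y, x') - k (y, x)‖ < ε / (|M| + 1)) fun y hy => ?_
    have c1 : ContinuousAt (fun z : E3 × E3 => k (z.2, z.1)) (x, y) :=
      ContinuousAt.comp (f := fun z : E3 × E3 => (z.2, z.1)) (hk y hy x hx)
        (continuousAt_snd.prodMk continuousAt_fst)
    have c2 : ContinuousAt (fun z : E3 × E3 => k (z.2, x)) (x, y) :=
      ContinuousAt.comp (f := fun z : E3 × E3 => (z.2, x)) (hk y hy x hx)
        (continuousAt_snd.prodMk continuousAt_const)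
    have c3 : ContinuousAt (fun z : E3 × E3 => ‖k (z.2, z.1) - k (z.2, x)‖) (x, y) := (c1.sub c2).norm
    refine c3.eventually (gt_mem_nhds ?_)
    simpa using hη
  obtain ⟨δ, hδ, h2⟩ := Metric.eventually_nhds_iff.1 (h1.and (hO.mem_nhds hx))
  refine ⟨δ, hδ, fun z x' hx' => ?_⟩
  obtain ⟨h3, h4⟩ := h2 hx'
  have i1 := ker_integrable hK z.2 (ker_cont_fst hk h4)
  have i2 := ker_integrable hK z.2 (ker_cont_fst hk hx)
  show ‖(∫ y, z.1 y • k (y, x')) - ∫ y, z.1 y • k (y, x)‖ ≤ ε
  rw [← integral_sub i1 i2]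
  simp_rw [← smul_sub]
  refine (ker_norm_le z.2 hη.le fun y hy => (h3 y hy).le).trans ?_
  calc M * (ε / (|M| + 1)) ≤ (|M| + 1) * (ε / (|M| + 1)) :=
        mul_le_mul_of_nonneg_right (by linarith [le_abs_self M]) hη.le
    _ = ε := by field_simp

theorem ker_continuousOn {V : Type} [NormedAddCommGroup V] [NormedSpace ℝ V] (hO : IsOpen O)
    (hK : IsCompact K) {k : E3 × E3 → V} (hk : ∀ y ∈ K, ∀ x ∈ O, ContinuousAt k (y, x)) (hf : L1 K M f) :
    ContinuousOn (fun x => ∫ y, f y • k (y, x)) O := by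
  intro x hx
  refine ContinuousAt.continuousWithinAt ?_
  rw [Metric.continuousAt_iff]
  intro ε hε
  obtain ⟨δ, hδ, h⟩ := ker_eqc hO hK hk M x hx (ε / 2) (half_pos hε)
  refine ⟨δ, hδ, fun x' hx' => ?_⟩
  rw [dist_eq_norm]
  exact (h ⟨f, hf⟩ x' hx').trans_lt (half_lt_self hε)

theorem ker_bound' {V : Type} [NormedAddCommGroup V] {A : Set E3} (hA : IsCompact A)
    (hK : IsCompact K) {k : E3 × E3 → V} (hk : ∀ y ∈ K, ∀ x ∈ A, ContinuousAt k (y, x)) :
    ∃ N : ℝ, 0 ≤ N ∧ ∀ y ∈ K, ∀ x ∈ A, ‖k (y, x)‖ ≤ N := by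
  obtain ⟨N, hN⟩ := (hK.prod hA).exists_bound_of_continuousOn (f := k)
    fun p hp => (hk p.1 hp.1 p.2 hp.2).continuousWithinAt
  exact ⟨max N 0, le_max_right _ _, fun y hy x hx => (hN (y, x) ⟨hy, hx⟩).trans (le_max_left _ _)⟩

theorem ker_bound {V : Type} [NormedAddCommGroup V] [NormedSpace ℝ V] {A : Set E3} (hA : IsCompact A)
    (hK : IsCompact K) {k : E3 × E3 → V} (hk : ∀ y ∈ K, ∀ x ∈ A, ContinuousAt k (y, x)) (M : ℝ) :
    ∃ N : ℝ, ∀ f, L1 K M f → ∀ x ∈ A, ‖∫ y, f y • k (y, x)‖ ≤ N := by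
  obtain ⟨N, hN0, hN⟩ := ker_bound' hA hK hk
  exact ⟨M * N, fun f hf x hx => ker_norm_le hf hN0 fun y hy => hN y hy x hx⟩

/-- `hasFDerivAt_integral_of_dominated_of_fderiv_le`, `continuousAt_grad_param`, `ker_continuousOn` -/
theorem ker_c1 (hO : IsOpen O) (hK : IsCompact K) {k : E3 × E3 → ℝ}
    (hk : ∀ y ∈ K, ∀ x ∈ O, ContDiffAt ℝ 1 k (y, x)) (hf : L1 K M f) :
    ContDiffOn ℝ 1 (fun x => ∫ y, f y * k (y, x)) O ∧
      ∀ x ∈ O, ∇ (fun x => ∫ y, f y * k (y, x)) x = ∫ y, f y • ∇ (fun z => k (y, z)) x := by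
  have hg : ∀ y ∈ K, ∀ x ∈ O, ContinuousAt (fun q : E3 × E3 => ∇ (fun z => k (q.1, z)) q.2) (y, x) :=
    fun y hy x hx => continuousAt_grad_param (hk y hy x hx)
  have hd : ∀ y ∈ K, ∀ x ∈ O, ContinuousAt (fun q : E3 × E3 => fderiv ℝ (fun z => k (q.1, z)) q.2) (y, x) := by
    intro y hy x hx
    have := (InnerProductSpace.toDual ℝ E3).continuous.continuousAt.comp (hg y hy x hx)
    refine this.congr (Eventually.of_forall fun q => ?_)
    simp [gradient]
  have hder : ∀ x ∈ O, HasFDerivAt (fun x => ∫ y, f y * k (y, x))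
      (∫ y, f y • fderiv ℝ (fun z => k (y, z)) x) x := by
    intro x hx
    obtain ⟨r, hr, hrO⟩ := Metric.nhds_basis_closedBall.mem_iff.1 (hO.mem_nhds hx)
    obtain ⟨N, hN0, hN⟩ := ker_bound' (isCompact_closedBall x r) hK fun y hy x' hx' => hd y hy x' (hrO hx')
    have hint : ∀ x' ∈ O, Integrable (fun y => f y * k (y, x')) volume := fun x' hx' =>
      ker_integrable hK hf (ker_cont_fst (fun y hy x hx => (hk y hy x hx).continuousAt) hx')
    refine hasFDerivAt_integral_of_dominated_of_fderiv_le (F := fun x y => f y * k (y, x))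
      (F' := fun x y => f y • fderiv ℝ (fun z => k (y, z)) x) (bound := fun y => |f y| * N)
      (Metric.closedBall_mem_nhds x hr) ?_ (hint x hx)
      (ker_integrable hK hf (ker_cont_fst hd hx)).aestronglyMeasurable ?_ (hf.int.abs.mul_const N) ?_
    · filter_upwards [hO.mem_nhds hx] with x' hx' using (hint x' hx').aestronglyMeasurable
    · refine Eventually.of_forall fun y x' hx' => ?_
      by_cases hy : y ∈ K
      · rw [norm_smul, Real.norm_eq_abs]
        exact mul_le_mul_of_nonneg_left (hN y hy x' hx') (abs_nonneg _)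
      · simp [hf.off y hy]
    · refine Eventually.of_forall fun y x' hx' => ?_
      by_cases hy : y ∈ K
      · have h1 : DifferentiableAt ℝ (fun z => k (y, z)) x' :=
          DifferentiableAt.comp (f := fun z : E3 => (y, z)) x'
            ((hk y hy x' (hrO hx')).differentiableAt one_ne_zero)
            ((differentiableAt_const y).prodMk differentiableAt_id)
        exact h1.hasFDerivAt.const_mul (f y)
      · simp only [hf.off y hy, zero_mul, zero_smul]
        exact hasFDerivAt_const _ _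
  constructor
  · have := (contDiffOn_succ_iff_fderiv_of_isOpen (𝕜 := ℝ) (n := 0)
      (f := fun x => ∫ y, f y * k (y, x)) hO).2
      ⟨fun x hx => (hder x hx).differentiableAt.differentiableWithinAt, by simp, ?_⟩
    · simpa using this
    · rw [contDiffOn_zero]
      exact (ker_continuousOn hO hK hd hf).congr fun x hx => (hder x hx).fderiv
  · intro x hx
    refine ext_inner_right ℝ fun a => ?_
    rw [inner_grad, (hder x hx).fderiv,
      ContinuousLinearMap.integral_apply (ker_integrable hK hf (ker_cont_fst hd hx)), real_inner_comm,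
      ← integral_inner (ker_integrable hK hf (ker_cont_fst hg hx))]
    refine integral_congr_ae (Eventually.of_forall fun y => ?_)
    simp only [ContinuousLinearMap.smul_apply, inner_smul_right, smul_eq_mul]
    rw [real_inner_comm, inner_grad]

/-- Fubini -/
theorem ker_wd (hO : IsOpen O) (hK : IsCompact K) {k : E3 × E3 → E3}
    (hk : ∀ y ∈ K, ∀ x ∈ O, ContinuousAt k (y, x)) (hw : ∀ y ∈ K, WD O (fun x => k (y, x)) 0)
    (hf : L1 K M f) : WD O (fun x => ∫ y, f y • k (y, x)) 0 := by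
  intro ψ hψ
  have hT : IsCompact (tsupport ψ) := hψ.cpt
  have h1 : ∀ x, ⟪∫ y, f y • k (y, x), ∇ ψ x⟫ = ∫ y, f y * ⟪k (y, x), ∇ ψ x⟫ := by
    intro x
    by_cases hx : x ∈ O
    · rw [real_inner_comm, ← integral_inner (ker_integrable hK hf (ker_cont_fst hk hx))]
      refine integral_congr_ae (Eventually.of_forall fun y => ?_)
      simp only [inner_smul_right]
      rw [real_inner_comm]
    · simp [(hψ.eq_zero hx).2]
  have hi : Integrable (fun p : E3 × E3 => f p.1 * ⟪k p, ∇ ψ p.2⟫) (volume.prod volume) := by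
    have a1 : Integrable ((tsupport ψ).indicator fun _ : E3 => (1 : ℝ)) volume :=
      (integrable_indicator_iff hT.measurableSet).2 (integrableOn_const hT.measure_lt_top.ne)
    have a2 := (hf.int.mul_prod a1).integrableOn (s := K ×ˢ tsupport ψ)
    have a3 : ContinuousOn (fun p : E3 × E3 => ⟪k p, ∇ ψ p.2⟫) (K ×ˢ tsupport ψ) := fun p hp =>
      ((hk p.1 hp.1 p.2 (hψ.sub hp.2)).inner
        (hψ.continuous_grad.comp continuous_snd).continuousAt).continuousWithinAt
    have a4 := a2.mul_continuousOn a3 (hK.prod hT)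
    have a5 : IntegrableOn (fun p : E3 × E3 => f p.1 * ⟪k p, ∇ ψ p.2⟫) (K ×ˢ tsupport ψ) (volume.prod volume) := by
      refine a4.congr_fun (fun p hp => ?_) (hK.prod hT).measurableSet
      simp only [indicator_of_mem hp.2, mul_one]
    refine a5.integrable_of_forall_notMem_eq_zero fun p hp => ?_
    by_cases h2 : p.1 ∈ K
    · have : p.2 ∉ tsupport ψ := fun h => hp ⟨h2, h⟩
      rw [grad_eq_zero_of_notMem this, inner_zero_right, mul_zero]
    · rw [hf.off _ h2, zero_mul]
  simp only [h1, Pi.zero_apply, zero_mul, integral_zero]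
  rw [← integral_integral_swap (f := fun y x => f y * ⟪k (y, x), ∇ ψ x⟫) hi]
  refine integral_eq_zero_of_ae (Eventually.of_forall fun y => ?_)
  simp only [Pi.zero_apply]
  rw [integral_const_mul]
  by_cases hy : y ∈ K
  · have := hw y hy ψ hψ
    simp only [Pi.zero_apply, zero_mul, integral_zero] at this
    rw [this, mul_zero]
  · rw [hf.off y hy, zero_mul]

theorem pot_c1 (hK : IsCompact K) (hf : L1 K M f) :
    ContDiffOn ℝ 1 (pot f) Kᶜ ∧ ∀ x, x ∉ K → ∇ (pot f) x = -fld f x := by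
  have hk : ∀ y ∈ K, ∀ x ∈ Kᶜ, ContDiffAt ℝ 1 (fun q : E3 × E3 => ‖q.2 - q.1‖⁻¹) (y, x) := by
    intro y hy x hx
    have hne : x - y ≠ 0 := fun h => hx (by rw [sub_eq_zero.1 h]; exact hy)
    exact ((contDiffAt_snd.sub contDiffAt_fst).norm ℝ hne).inv (norm_ne_zero_iff.2 hne)
  obtain ⟨h1, h2⟩ := ker_c1 hK.isClosed.isOpen_compl hK hk hf
  refine ⟨h1, fun x hx => ?_⟩
  refine (h2 x hx).trans ?_
  unfold fld
  rw [← integral_neg]
  refine integral_congr_ae (Eventually.of_forall fun y => ?_)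
  by_cases hy : y ∈ K
  · have hne : x - y ≠ 0 := fun h => hx (by rw [sub_eq_zero.1 h]; exact hy)
    have : ∇ (fun z : E3 => ‖z - y‖⁻¹) x = -Bf (x - y) := by
      rw [← grad_inv_norm hne]
      unfold gradient
      rw [fderiv_comp_sub (f := fun z : E3 => ‖z‖⁻¹)]
    simp only [this, smul_neg]
  · simp [hf.off y hy]

theorem pot_decay {R : ℝ} (hR : 0 < R) (hf : L1 (Metric.closedBall 0 R) M f) {x : E3} (hx : 2 * R ≤ ‖x‖) :
    |pot f x| ≤ 2 * M / ‖x‖ ∧ ‖fld f x‖ ≤ 4 * M / ‖x‖ ^ 2 := by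
  have hx0 : 0 < ‖x‖ := by linarith
  have hy : ∀ y ∈ Metric.closedBall (0 : E3) R, ‖x‖ / 2 ≤ ‖x - y‖ := by
    intro y hy
    have h1 : ‖y‖ ≤ R := by simpa using hy
    linarith [norm_sub_norm_le x y]
  constructor
  · have := ker_norm_le (V := ℝ) hf (k := fun y => ‖x - y‖⁻¹) (N := (‖x‖ / 2)⁻¹) (by positivity) fun y h => by
      rw [Real.norm_eq_abs, abs_of_nonneg (by positivity)]
      exact inv_anti₀ (by positivity) (hy y h)
    refine le_trans this (le_of_eq ?_)
    field_simp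
  · have := ker_norm_le hf (k := fun y => Bf (x - y)) (N := ((‖x‖ / 2) ^ 2)⁻¹) (by positivity) fun y h => by
      rw [norm_Bf]
      exact inv_anti₀ (by positivity) (pow_le_pow_left₀ (by positivity) (hy y h) 2)
    refine le_trans this (le_of_eq ?_)
    field_simp
    norm_num

end Crest.Agent.R83
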