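import Crest.Agent.R83.Sym

/-!
# R83 TASK PB: cross products, Piola transform, cones, point charges
-/

set_option autoImplicit false

namespace Crest.Agent.R83

open MeasureTheory Set Filter Topology
open scoped Gradient RealInnerProductSpace ENNReal NNReal ContDiff

variable {O O' : Set E3} {F G B : E3 → E3} {v : E3 → ℝ} {x : E3}

theorem pb_inner (a b : E3) : ⟪a, b⟫ = a 0 * b 0 + a 1 * b 1 + a 2 * b 2 := by
  simp [PiLp.inner_apply, Fin.sum_univ_three, mul_comm]

theorem pb_norm_sq (a : E3) : ‖a‖ ^ 2 = a 0 ^ 2 + a 1 ^ 2 + a 2 ^ 2 := by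
  rw [← real_inner_self_eq_norm_sq, pb_inner]
  ring

theorem pb_lin {V : Type} [NormedAddCommGroup V] [NormedSpace ℝ V] (L : E3 →L[ℝ] V) (a : E3) :
    L a = ∑ k, a k • L (e k) := by
  have : a = ∑ k, a k • e k := by
    ext i
    fin_cases i <;> simp [Fin.sum_univ_three]
  conv_lhs => rw [this]
  simp only [map_sum, map_smul]

theorem pb_ad_sum (F : E3 → E3) (x b : E3) : ad F x b = ∑ i, b i • ad F x (e i) := by
  ext i
  simp [ad, Matrix.mulVec, dotProduct, Fin.sum_univ_three]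
  ring

theorem pb_cross_e (i : Fin 3) : cross (e (i + 1)) (e (i + 2)) = e i := by
  ext j
  fin_cases i <;> fin_cases j <;> simp [cross]

theorem pb_cont_ad : Continuous fun z : Matrix (Fin 3) (Fin 3) ℝ × E3 =>
    (WithLp.toLp 2 (z.1.adjugate.mulVec z.2.ofLp) : E3) :=
  (PiLp.continuous_toLp 2 _).comp (continuous_fst.matrix_adjugate.matrix_mulVec
    ((PiLp.continuous_ofLp 2 _).comp continuous_snd))

theorem pb_cont_tr : Continuous fun z : Matrix (Fin 3) (Fin 3) ℝ × E3 =>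
    (WithLp.toLp 2 (z.1.transpose.mulVec z.2.ofLp) : E3) :=
  (PiLp.continuous_toLp 2 _).comp (continuous_fst.matrix_transpose.matrix_mulVec
    ((PiLp.continuous_ofLp 2 _).comp continuous_snd))

theorem pb_ad_at {X : Type} [TopologicalSpace X] {M : X → Matrix (Fin 3) (Fin 3) ℝ} {b : X → E3} {p : X}
    (hM : ContinuousAt M p) (hb : ContinuousAt b p) :
    ContinuousAt (fun q => (WithLp.toLp 2 ((M q).adjugate.mulVec (b q).ofLp) : E3)) p :=
  ContinuousAt.comp (f := fun q => (M q, b q)) pb_cont_ad.continuousAt (hM.prodMk hb)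

theorem pb_ad_on {X : Type} [TopologicalSpace X] {M : X → Matrix (Fin 3) (Fin 3) ℝ} {b : X → E3}
    {s : Set X} (hM : ContinuousOn M s) (hb : ContinuousOn b s) :
    ContinuousOn (fun q => (WithLp.toLp 2 ((M q).adjugate.mulVec (b q).ofLp) : E3)) s :=
  Continuous.comp_continuousOn (f := fun q => (M q, b q)) pb_cont_ad (hM.prodMk hb)

theorem pb_tr_on {X : Type} [TopologicalSpace X] {M : X → Matrix (Fin 3) (Fin 3) ℝ} {b : X → E3}
    {s : Set X} (hM : ContinuousOn M s) (hb : ContinuousOn b s) :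
    ContinuousOn (fun q => (WithLp.toLp 2 ((M q).transpose.mulVec (b q).ofLp) : E3)) s :=
  Continuous.comp_continuousOn (f := fun q => (M q, b q)) pb_cont_tr (hM.prodMk hb)

theorem pb_cont_jac (hF : ContDiffAt ℝ 1 F x) : ContinuousAt (jac F) x := by
  have h2 := (hF.fderiv_right (m := 0) (by simp)).continuousAt
  refine continuousAt_pi.2 fun i => continuousAt_pi.2 fun j => ?_
  exact (EuclideanSpace.proj i : E3 →L[ℝ] ℝ).continuous.continuousAt.comp
    (h2.clm_apply continuousAt_const)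

theorem pb_fderiv_coord (hB : DifferentiableAt ℝ B x) (i : Fin 3) (a : E3) :
    fderiv ℝ (fun y => B y i) x a = fderiv ℝ B x a i :=
  congrArg (fun L : E3 →L[ℝ] ℝ => L a)
    ((EuclideanSpace.proj i : E3 →L[ℝ] ℝ).hasFDerivAt.comp x hB.hasFDerivAt).fderiv

theorem pb_fderiv_radial {l : E3 → ℝ} (c : E3) (hl : DifferentiableAt ℝ l x) (a : E3) :
    fderiv ℝ (fun y => l y • (y - c)) x a = l x • a + ⟪∇ l x, a⟫ • (x - c) := by
  have h : HasFDerivAt (fun y => l y • (y - c)) _ x :=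
    hl.hasFDerivAt.fun_smul ((hasFDerivAt_id x).sub_const c)
  rw [h.fderiv, inner_grad]
  simp

theorem pb_jac_radial {l : E3 → ℝ} (c : E3) (hl : DifferentiableAt ℝ l x) (i j : Fin 3) :
    jac (fun y => l y • (y - c)) x i j = l x * (if i = j then 1 else 0) + ∇ l x j * (x i - c i) := by
  rw [jac, Matrix.of_apply, pb_fderiv_radial c hl, inner_grad, grad_apply]
  simp

theorem pb_grad_norm {y : E3} (hy : y ≠ 0) : ∇ (fun z : E3 => ‖z‖) y = ‖y‖⁻¹ • y := by
  have h0 : ‖y‖ ≠ 0 := norm_ne_zero_iff.2 hy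
  have e1 : (fun z : E3 => ‖z‖) = fun z => √(‖z‖ ^ 2) := by
    ext z
    rw [Real.sqrt_sq (norm_nonneg _)]
  rw [e1, grad_comp (f := fun z : E3 => ‖z‖ ^ 2) (Real.hasDerivAt_sqrt (pow_ne_zero 2 h0))
    ((differentiableAt_id.norm ℝ hy).pow 2), grad_norm_sq, smul_smul, Real.sqrt_sq (norm_nonneg _)]
  congr 1
  field_simp

theorem continuous_cross : Continuous fun p : E3 × E3 => cross p.1 p.2 := by
  refine (PiLp.continuous_toLp 2 _).comp (continuous_pi fun i => ?_)
  fin_cases i <;> simp <;> fun_prop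

theorem norm_cross_le (a b : E3) : ‖cross a b‖ ≤ ‖a‖ * ‖b‖ := by
  rw [← pow_le_pow_iff_left₀ (norm_nonneg _) (by positivity) two_ne_zero, mul_pow, pb_norm_sq, pb_norm_sq,
    pb_norm_sq]
  simp only [cross, PiLp.toLp_apply, Matrix.cons_val_zero, Matrix.cons_val_one, Matrix.cons_val]
  nlinarith [sq_nonneg (a 0 * b 0 + a 1 * b 1 + a 2 * b 2)]

theorem inner_tr_ad (F : E3 → E3) (x a b : E3) : ⟪tr F x a, ad F x b⟫ = (jac F x).det * ⟪a, b⟫ := by
  rw [pb_inner, pb_inner]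
  simp [tr, ad, Matrix.mulVec, dotProduct, Fin.sum_univ_three, Matrix.adjugate_fin_three,
    Matrix.det_fin_three]
  ring

theorem ad_cross (F : E3 → E3) (x a b : E3) : ad F x (cross a b) = cross (tr F x a) (tr F x b) := by
  ext i
  fin_cases i <;>
    simp [tr, ad, cross, Matrix.mulVec, dotProduct, Fin.sum_univ_three, Matrix.adjugate_fin_three] <;> ring

theorem tr_smul (F : E3 → E3) (x : E3) (c : ℝ) (a : E3) : tr F x (c • a) = c • tr F x a := by
  simp [tr, Matrix.mulVec_smul]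

theorem tr_sub (F : E3 → E3) (x a b : E3) : tr F x (a - b) = tr F x a - tr F x b := by
  simp [tr, Matrix.mulVec_sub]

theorem ad_smul (F : E3 → E3) (x : E3) (c : ℝ) (a : E3) : ad F x (c • a) = c • ad F x a := by
  simp [ad, Matrix.mulVec_smul]

theorem grad_comp_map (hF : DifferentiableAt ℝ F x) (hv : DifferentiableAt ℝ v (F x)) :
    ∇ (fun y => v (F y)) x = tr F x (∇ v (F x)) := by
  ext i
  rw [grad_apply, fderiv_fun_comp x hv hF, ContinuousLinearMap.comp_apply, ← inner_grad, pb_inner]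
  simp [tr, jac, Matrix.mulVec, dotProduct, Fin.sum_univ_three]
  ring

theorem pb_grad_coord (hF : DifferentiableAt ℝ F x) (i : Fin 3) :
    ∇ (fun y => F y i) x = tr F x (e i) := by
  rw [grad_comp_map (v := fun y => y i) hF (EuclideanSpace.proj i : E3 →L[ℝ] ℝ).differentiableAt,
    grad_coord]

theorem jac_comp (hG : DifferentiableAt ℝ G x) (hF : DifferentiableAt ℝ F (G x)) :
    jac (fun y => F (G y)) x = jac F (G x) * jac G x := by
  ext i j
  rw [jac, Matrix.of_apply, fderiv_fun_comp x hF hG, ContinuousLinearMap.comp_apply, pb_lin]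
  simp [jac, Matrix.mul_apply, mul_comm]

theorem pb_comp (hG : DifferentiableAt ℝ G x) (hF : DifferentiableAt ℝ F (G x)) (B : E3 → E3) :
    pb (fun y => F (G y)) B x = pb G (pb F B) x := by
  simp only [pb, ad]
  rw [jac_comp hG hF, Matrix.adjugate_mul_distrib, ← Matrix.mulVec_mulVec]

theorem jac_congr (h : F =ᶠ[𝓝 x] G) : jac F x = jac G x := by
  simp only [jac, h.fderiv_eq]

theorem jac_sub_const (c : E3) (F : E3 → E3) (x : E3) : jac (fun y => F y - c) x = jac F x := by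
  simp only [jac, fderiv_sub_const]

theorem jac_id (x : E3) : jac (fun y => y) x = 1 := by
  ext i j
  simp [jac, Matrix.one_apply]

/-- joint continuity of the Jacobian (`ContDiffAt.fderiv`) -/
theorem continuousAt_jac_param {P : Type} [NormedAddCommGroup P] [NormedSpace ℝ P] {k : P × E3 → E3}
    {p : P × E3} (hk : ContDiffAt ℝ 1 k p) :
    ContinuousAt (fun q : P × E3 => jac (fun y => k (q.1, y)) q.2) p := by
  have h1 : ContDiffAt ℝ 1 (Function.uncurry fun (q : P × E3) (y : E3) => k (q.1, y)) (p, p.2) :=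
    ContDiffAt.comp (g := k) (f := fun z : (P × E3) × E3 => (z.1.1, z.2)) (p, p.2) hk (by fun_prop)
  have h2 := (h1.fderiv (m := 0) (g := fun q : P × E3 => q.2) (by fun_prop) (by simp)).continuousAt
  refine continuousAt_pi.2 fun i => continuousAt_pi.2 fun j => ?_
  exact (EuclideanSpace.proj i : E3 →L[ℝ] ℝ).continuous.continuousAt.comp
    (h2.clm_apply continuousAt_const)

theorem continuousAt_pb_param {P : Type} [NormedAddCommGroup P] [NormedSpace ℝ P] {k : P × E3 → E3}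
    {p : P × E3} (hk : ContDiffAt ℝ 1 k p) (hB : ContinuousAt B (k p)) :
    ContinuousAt (fun q : P × E3 => pb (fun y => k (q.1, y)) B q.2) p := by
  exact pb_ad_at (continuousAt_jac_param hk) (hB.comp hk.continuousAt)

theorem continuousOn_pb (hO : IsOpen O) (hF : ContDiffOn ℝ 1 F O) (hB : ContinuousOn B O')
    (hm : MapsTo F O O') : ContinuousOn (pb F B) O := by
  exact pb_ad_on (fun x hx => (pb_cont_jac (hF.contDiffAt (hO.mem_nhds hx))).continuousWithinAt)
    (hB.comp hF.continuousOn hm)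

/-- `pb F B = ∑ i, (B i ∘ F) • ∇F_{i+1} × ∇F_{i+2}`; test `wd_cross` with `ψ * (B i ∘ F)`; the extra terms add up
to `ψ * det * dvg B ∘ F` (`inner_tr_ad`). -/
theorem wd_pb (hO : IsOpen O) (hO' : IsOpen O') (hF : ContDiffOn ℝ 2 F O) (hB : ContDiffOn ℝ 1 B O')
    (hm : MapsTo F O O') (hd : ∀ y ∈ O', dvg B y = 0) : WD O (pb F B) 0 := by
  intro ψ hψ
  have hF1 : ContDiffOn ℝ 1 F O := hF.of_le (by norm_num)
  have hc : ∀ {n : ℕ∞ω} {H : E3 → E3}, ContDiffOn ℝ n H O → ∀ i, ContDiffOn ℝ n (fun y => H y i) O :=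
    fun h i => (EuclideanSpace.proj i : E3 →L[ℝ] ℝ).contDiff.comp_contDiffOn h
  have hη : ∀ i, Test O fun y => ψ y * B (F y) i := fun i => hψ.mul hO (hc (hB.comp hF1 hm) i)
  have key : ∀ x, ⟪pb F B x, ∇ ψ x⟫ = ∑ i : Fin 3, ⟪cross (∇ (fun y => F y (i + 1)) x)
      (∇ (fun y => F y (i + 2)) x), ∇ (fun y => ψ y * B (F y) i) x⟫ := fun x => by
    by_cases hx : x ∈ O
    · have dF : DifferentiableAt ℝ F x := (hF1.contDiffAt (hO.mem_nhds hx)).differentiableAt one_ne_zero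
      have dB : DifferentiableAt ℝ B (F x) :=
        (hB.contDiffAt (hO'.mem_nhds (hm hx))).differentiableAt one_ne_zero
      have dBi : ∀ i, DifferentiableAt ℝ (fun y => B y i) (F x) := fun i =>
        (EuclideanSpace.proj i : E3 →L[ℝ] ℝ).differentiableAt.comp _ dB
      have h1 : ∀ i : Fin 3, ⟪cross (∇ (fun y => F y (i + 1)) x) (∇ (fun y => F y (i + 2)) x),
          ∇ (fun y => ψ y * B (F y) i) x⟫ = ψ x * (jac F x).det * fderiv ℝ B (F x) (e i) i +
            ⟪B (F x) i • ad F x (e i), ∇ ψ x⟫ := fun i => by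
        rw [pb_grad_coord dF, pb_grad_coord dF, ← ad_cross, pb_cross_e,
          grad_mul (g := fun y => B (F y) i) (hψ.differentiable x) ((dBi i).comp x dF),
          grad_comp_map dF (dBi i), inner_add_right,
          inner_smul_right, inner_smul_right, real_inner_comm, inner_tr_ad, inner_grad, pb_fderiv_coord dB,
          real_inner_smul_left, mul_assoc]
      have h2 := hd _ (hm hx)
      rw [dvg] at h2
      rw [Finset.sum_congr rfl fun i _ => h1 i, Finset.sum_add_distrib, ← Finset.mul_sum, h2, mul_zero,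
        zero_add, ← sum_inner, pb, pb_ad_sum]
    · simp only [(hψ.eq_zero hx).2, ((hη _).eq_zero hx).2, inner_zero_right, Finset.sum_const_zero]
  simp only [key, Pi.zero_apply, zero_mul, integral_zero]
  have hi : ∀ i : Fin 3, Integrable (fun x => ⟪cross (∇ (fun y => F y (i + 1)) x)
      (∇ (fun y => F y (i + 2)) x), ∇ (fun y => ψ y * B (F y) i) x⟫) volume := fun i =>
    (hη i).integrable_inner hO (continuous_cross.comp_continuousOn
      ((continuousOn_grad hO (hc hF1 _)).prodMk (continuousOn_grad hO (hc hF1 _))))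
  rw [integral_finsetSum _ fun i _ => hi i]
  refine Finset.sum_eq_zero fun i _ => ?_
  simpa using wd_cross hO (hc hF1 (i + 1)) (hc hF (i + 2)) _ (hη i)

theorem contDiffOn_Bf (n : ℕ∞ω) : ContDiffOn ℝ n Bf {y | y ≠ 0} := by
  have h : ContDiffOn ℝ n (fun y : E3 => ‖y‖) {y | y ≠ 0} := contDiffOn_id.norm ℝ fun _ h => h
  exact ((h.pow 3).inv fun y hy => pow_ne_zero _ (norm_ne_zero_iff.2 hy)).smul contDiffOn_id

theorem norm_Bf (y : E3) : ‖Bf y‖ = (‖y‖ ^ 2)⁻¹ := by
  rw [Bf, norm_smul, norm_inv, norm_pow, norm_norm]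
  by_cases h : ‖y‖ = 0
  · simp [h]
  · field_simp

theorem dvg_Bf {y : E3} (hy : y ≠ 0) : dvg Bf y = 0 := by
  have h0 : ‖y‖ ≠ 0 := norm_ne_zero_iff.2 hy
  have dn : DifferentiableAt ℝ (fun z : E3 => ‖z‖) y := differentiableAt_id.norm ℝ hy
  have hh : HasDerivAt (fun t : ℝ => (t ^ 3)⁻¹) (-(3 * ‖y‖ ^ 2) / (‖y‖ ^ 3) ^ 2) ‖y‖ := by
    simpa using (hasDerivAt_pow 3 ‖y‖).fun_inv (pow_ne_zero _ h0)
  have e1 : Bf = fun z : E3 => (‖z‖ ^ 3)⁻¹ • (z - 0) := by
    ext1 z
    rw [sub_zero, Bf]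
  have h2 := pb_norm_sq y
  rw [dvg, e1]
  have dl : DifferentiableAt ℝ (fun z : E3 => (‖z‖ ^ 3)⁻¹) y := (dn.pow 3).inv (pow_ne_zero _ h0)
  simp only [pb_fderiv_radial 0 dl, grad_comp hh dn, pb_grad_norm hy]
  simp [Fin.sum_univ_three, inner_smul_left, EuclideanSpace.inner_single_right]
  field_simp
  linear_combination 3 * h2

theorem grad_inv_norm {y : E3} (hy : y ≠ 0) : ∇ (fun z : E3 => ‖z‖⁻¹) y = -Bf y := by
  have h0 : ‖y‖ ≠ 0 := norm_ne_zero_iff.2 hy
  rw [grad_comp (hasDerivAt_inv h0) (differentiableAt_id.norm ℝ hy), pb_grad_norm hy, Bf, smul_smul,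
    ← neg_smul]
  congr 1
  field_simp

/-- radial maps `y ↦ l y • (y - c)`: `jac = l + (x - c) ⊗ ∇l` -/
theorem det_radial {l : E3 → ℝ} (c : E3) (hl : DifferentiableAt ℝ l x) :
    (jac (fun y => l y • (y - c)) x).det = l x ^ 2 * (l x + ⟪∇ l x, x - c⟫) := by
  rw [Matrix.det_fin_three, pb_inner]
  simp [pb_jac_radial c hl]
  ring

/-- the solid angle form is invariant under radial maps -/
theorem pb_radial {l : E3 → ℝ} (c : E3) (hl : DifferentiableAt ℝ l x) (h0 : 0 < l x) :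
    pb (fun y => l y • (y - c)) Bf x = Bf (x - c) := by
  have e1 : Bf (l x • (x - c)) = ((‖x - c‖ ^ 3)⁻¹ * (l x ^ 2)⁻¹) • (x - c) := by
    rw [Bf, smul_smul, norm_smul, Real.norm_eq_abs, abs_of_pos h0, mul_pow, mul_inv]
    congr 1
    field_simp
  have e2 : ad (fun y => l y • (y - c)) x (x - c) = l x ^ 2 • (x - c) := by
    ext i
    fin_cases i <;> simp [ad, dotProduct, Fin.sum_univ_three, Matrix.adjugate_fin_three,
      pb_jac_radial c hl] <;> ring
  rw [pb, e1, ad_smul, e2, smul_smul, mul_assoc, inv_mul_cancel₀ (pow_pos h0 2).ne', mul_one, Bf]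

/-- `y / ‖y‖³ = -∇(y₁ / ‖y‖) × ∇ arg (y₀ - i y₂)`, pulled back by `F` (`ad_cross`, `grad_comp_map`) -/
theorem pb_Bf_eq_cross (hF : DifferentiableAt ℝ F x) (h0 : F x 0 ^ 2 + F x 2 ^ 2 ≠ 0) :
    -pb F Bf x = cross (∇ (fun y => F y 1 / ‖F y‖) x)
      (om (fun y => ((F y 0 : ℂ) - (F y 2 : ℂ) * Complex.I) / (√(F y 0 ^ 2 + F y 2 ^ 2) : ℝ)) x) := by
  have hy : F x ≠ 0 := fun h => h0 (by simp [h])
  have hn : ‖F x‖ ≠ 0 := norm_ne_zero_iff.2 hy
  have dc : ∀ i, DifferentiableAt ℝ (fun y : E3 => y i) (F x) := fun i =>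
    (EuclideanSpace.proj i : E3 →L[ℝ] ℝ).differentiableAt
  have dn : DifferentiableAt ℝ (fun z : E3 => ‖z‖⁻¹) (F x) := (differentiableAt_id.norm ℝ hy).inv hn
  have hp : 0 < F x 0 ^ 2 + F x 2 ^ 2 := lt_of_le_of_ne (by positivity) h0.symm
  have hs : √(F x 0 ^ 2 + F x 2 ^ 2) ≠ 0 := (Real.sqrt_pos.2 hp).ne'
  have dr : DifferentiableAt ℝ (fun z : E3 => (√(z 0 ^ 2 + z 2 ^ 2))⁻¹) (F x) :=
    ((((dc 0).pow 2).add ((dc 2).pow 2)).sqrt h0).inv hs
  have a1 := grad_comp_map hF ((dc 1).mul dn)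
  have a2 := grad_comp_map hF ((dc 0).mul dr)
  have a3 := grad_comp_map hF (((dc 2).mul dr).const_mul (-1))
  simp only [Pi.mul_apply, Pi.mul_def] at a1 a2 a3
  rw [grad_mul (dc 1) dn, grad_inv_norm hy, grad_coord] at a1
  rw [grad_mul (dc 0) dr, grad_coord] at a2
  rw [grad_const_mul _ ((dc 2).fun_mul dr), grad_mul (dc 2) dr, grad_coord] at a3
  have e1 : ∀ a b r : ℝ, (((a : ℂ) - (b : ℂ) * Complex.I) / (r : ℝ)).re = a * r⁻¹ := fun a b r => by
    rw [Complex.div_ofReal_re, div_eq_mul_inv]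
    simp
  have e2 : ∀ a b r : ℝ, (((a : ℂ) - (b : ℂ) * Complex.I) / (r : ℝ)).im = -1 * (b * r⁻¹) :=
    fun a b r => by
      rw [Complex.div_ofReal_im, div_eq_mul_inv]
      simp
  simp only [om, e1, e2, div_eq_mul_inv (_ : ℝ)]
  rw [a1, a2, a3, ← tr_smul, ← tr_smul, ← tr_sub, ← ad_cross, pb, ← neg_one_smul ℝ, ← ad_smul]
  congr 1
  have h1 := pb_norm_sq (F x)
  have h2 := Real.sq_sqrt hp.le
  generalize ∇ (fun z : E3 => (√(z 0 ^ 2 + z 2 ^ 2))⁻¹) (F x) = w
  generalize √(F x 0 ^ 2 + F x 2 ^ 2) = r at *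
  ext i
  fin_cases i <;> simp [cross, Bf] <;> field_simp
  · linear_combination (F x 0) * h1 - (F x 0) * h2
  · linear_combination (- F x 1) * h2
  · linear_combination (F x 2) * h1 - (F x 2) * h2

theorem cone.mono {κ κ' : ℝ} {E J : E3} (h : cone κ E J) (h' : κ' ≤ κ) : cone κ' E J := by
  exact (mul_le_mul_of_nonneg_right h' (by positivity)).trans h

theorem cone.neg {κ : ℝ} {E J : E3} (h : cone κ E J) : cone κ (-E) (-J) := by
  simpa [cone] using h

theorem cone.smul {κ a b : ℝ} {E J : E3} (h : cone κ E J) (hκ : 0 ≤ κ) (ha : 0 < a) (hb : 0 < b) :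
    cone (κ * min (a / b) (b / a)) (a • E) (b • J) := by
  have h1 : min (a / b) (b / a) * a ^ 2 ≤ a * b :=
    (mul_le_mul_of_nonneg_right (min_le_right _ _) (by positivity)).trans_eq (by field_simp)
  have h2 : min (a / b) (b / a) * b ^ 2 ≤ a * b :=
    (mul_le_mul_of_nonneg_right (min_le_left _ _) (by positivity)).trans_eq (by field_simp)
  have h3 := mul_le_mul_of_nonneg_left h (mul_pos ha hb).le
  have h4 := mul_le_mul_of_nonneg_right h1 (mul_nonneg hκ (sq_nonneg ‖E‖))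
  have h5 := mul_le_mul_of_nonneg_right h2 (mul_nonneg hκ (sq_nonneg ‖J‖))
  rw [cone, norm_smul, norm_smul, real_inner_smul_left, real_inner_smul_right, mul_pow, mul_pow,
    Real.norm_eq_abs, Real.norm_eq_abs, sq_abs, sq_abs]
  linarith

theorem cone_of_pos {X : Type} [TopologicalSpace X] {K : Set X} (hK : IsCompact K) {E J : X → E3}
    (hE : ContinuousOn E K) (hJ : ContinuousOn J K) (h : ∀ x ∈ K, 0 < ⟪E x, J x⟫) :
    ∃ κ : ℝ, 0 < κ ∧ ∀ x ∈ K, cone κ (E x) (J x) := by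
  obtain ⟨κ, hκ, h1⟩ := hK.exists_forall_le' (a := 0)
    (f := fun x => ⟪E x, J x⟫ / (1 + (‖E x‖ ^ 2 + ‖J x‖ ^ 2)))
    ((hE.inner hJ).div (continuousOn_const.add ((hE.norm.pow 2).add (hJ.norm.pow 2)))
      fun x _ => (add_pos_of_pos_of_nonneg one_pos (add_nonneg (sq_nonneg _) (sq_nonneg _))).ne')
    fun x hx => div_pos (h x hx) (by positivity)
  refine ⟨κ, hκ, fun x hx => ?_⟩
  have := (le_div_iff₀ (by positivity)).1 (h1 x hx)
  rw [cone]
  linarith

/-- uniform constants for the pull-back on a compact set -/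
theorem cone_pb {K : Set E3} (hK : IsCompact K) (hF : ∀ x ∈ K, ContDiffAt ℝ 1 F x)
    (hd : ∀ x ∈ K, 0 < (jac F x).det) : ∃ κ : ℝ, 0 < κ ∧ ∀ x ∈ K, ∀ b : E3,
      cone κ (tr F x b) (ad F x b) ∧ κ * ‖b‖ ^ 2 ≤ ⟪tr F x b, ad F x b⟫ := by
  have hj : ContinuousOn (jac F) K := fun x hx => (pb_cont_jac (hF x hx)).continuousWithinAt
  have hj2 : ContinuousOn (fun z : E3 × E3 => jac F z.1) (K ×ˢ Metric.sphere 0 1) :=
    hj.comp continuousOn_fst fun z hz => hz.1
  obtain ⟨κ, hκ, h1⟩ := cone_of_pos (hK.prod (isCompact_sphere (0 : E3) 1))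
    (E := fun z => tr F z.1 z.2) (J := fun z => ad F z.1 z.2) (pb_tr_on hj2 continuousOn_snd)
    (pb_ad_on hj2 continuousOn_snd) fun z hz => by
      rw [inner_tr_ad, real_inner_self_eq_norm_sq, mem_sphere_zero_iff_norm.1 hz.2, one_pow, mul_one]
      exact hd _ hz.1
  obtain ⟨κ', hκ', h2⟩ := hK.exists_forall_le' (a := 0) (f := fun x => (jac F x).det)
    (continuous_id.matrix_det.comp_continuousOn hj) hd
  refine ⟨min κ κ', lt_min hκ hκ', fun x hx b => ⟨?_, ?_⟩⟩
  · refine cone.mono ?_ (min_le_left _ _)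
    by_cases hb : b = 0
    · simp [hb, cone, tr, ad]
    · have h0 : 0 < ‖b‖ := norm_pos_iff.2 hb
      have h3 := (h1 (x, ‖b‖⁻¹ • b) ⟨hx, by simp [norm_smul, h0.ne']⟩).smul hκ.le h0 h0
      rwa [← tr_smul, ← ad_smul, smul_inv_smul₀ h0.ne', div_self h0.ne', min_self, mul_one] at h3
  · rw [inner_tr_ad, real_inner_self_eq_norm_sq]
    exact mul_le_mul_of_nonneg_right ((min_le_right _ _).trans (h2 x hx)) (by positivity)

end Crest.Agent.R83
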