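import Crest.Agent.R83.Tst

/-!
# R83 TASK Sym: integration by parts for `C¹` functions, null Lagrangians
-/

set_option autoImplicit false

namespace Crest.Agent.R83

open MeasureTheory Set Filter Topology
open scoped Gradient RealInnerProductSpace ENNReal NNReal ContDiff

variable {O : Set E3} {η h g : E3 → ℝ}

theorem sym_int {φ k : E3 → ℝ} (hO : IsOpen O) (hφ : Continuous φ) (hc : HasCompactSupport φ)
    (hs : tsupport φ ⊆ O) (hk : ContinuousOn k O) : Integrable (fun x => φ x * k x) volume :=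
  ((hφ.continuousOn.mul hk).continuous_of_tsupport_subset hO
    (tsupport_mul_subset_left.trans hs)).integrable_of_hasCompactSupport hc.mul_right

theorem sym_cont_grad (hO : IsOpen O) (hh : ContDiffOn ℝ 1 h O) (a : E3) :
    ContinuousOn (fun x => ⟪∇ h x, a⟫) O :=
  (continuousOn_grad hO hh).inner continuousOn_const

theorem sym_int_grad {k : E3 → ℝ} (hO : IsOpen O) (hη : Test O η) (hk : ContinuousOn k O) (a : E3) :
    Integrable (fun x => ⟪∇ η x, a⟫ * k x) volume := by
  have hs : tsupport (fun x => ⟪∇ η x, a⟫) ⊆ tsupport η :=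
    closure_minimal (fun x hx => by
      by_contra h
      exact hx (by simp [grad_eq_zero_of_notMem h])) (isClosed_tsupport η)
  exact sym_int hO (hη.continuous_grad.inner continuous_const)
    (hη.cpt.isCompact.of_isClosed_subset (isClosed_tsupport _) hs) (hs.trans hη.sub) hk

/-- `η h` is a test function (`Test.mul`); `integral_fderiv_eq_zero`-type lemma, or
`integral_mul_fderiv_eq_neg_fderiv_mul_of_integrable` after replacing `h` by `χ h` (`exists_cutoff`) -/
theorem integral_ibp (hO : IsOpen O) (hη : Test O η) (hh : ContDiffOn ℝ 1 h O) (a : E3) :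
    ∫ x, ⟪∇ η x, a⟫ * h x = -∫ x, η x * ⟪∇ h x, a⟫ := by
  have hd : ∀ x ∈ O, DifferentiableAt ℝ h x := fun x hx =>
    (hh.contDiffAt (hO.mem_nhds hx)).differentiableAt one_ne_zero
  have h1 := sym_int_grad hO hη hh.continuousOn a
  have h2 := sym_int hO hη.c1.continuous hη.cpt hη.sub (sym_cont_grad hO hh a)
  simp only [inner_grad] at h1 h2 ⊢
  rw [integral_mul_fderiv_eq_neg_fderiv_mul_of_integrable h1 h2
    (sym_int hO hη.c1.continuous hη.cpt hη.sub hh.continuousOn) (fun x _ => hη.differentiable x)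
    fun x hx => hd x (hη.sub hx), neg_neg]

theorem sym_deriv {φ ψ : E3 → ℝ} (hφ : Integrable φ volume) (hψ : Test univ ψ) (b : E3) :
    HasDerivAt (fun t : ℝ => ∫ x, φ x * ψ (x + t • b)) (∫ x, φ x * ⟪∇ ψ x, b⟫) 0 := by
  obtain ⟨M, -, hM⟩ := hψ.bdd
  have c1 : ∀ t : ℝ, Continuous fun x => ψ (x + t • b) := fun t =>
    hψ.c1.continuous.comp (by fun_prop)
  have c2 : ∀ t : ℝ, Continuous fun x => ⟪∇ ψ (x + t • b), b⟫ := fun t =>
    (hψ.continuous_grad.comp (by fun_prop)).inner continuous_const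
  have := (hasDerivAt_integral_of_dominated_loc_of_deriv_le (μ := volume) (x₀ := (0 : ℝ))
    (F := fun t x => φ x * ψ (x + t • b)) (F' := fun t x => φ x * ⟪∇ ψ (x + t • b), b⟫)
    (bound := fun x => ‖φ x‖ * (M * ‖b‖)) univ_mem
    (.of_forall fun t => hφ.1.mul (c1 t).aestronglyMeasurable)
    (hφ.mul_bdd (c := M) (c1 0).aestronglyMeasurable (.of_forall fun x => (hM _).1))
    (hφ.1.mul (c2 0).aestronglyMeasurable)
    (.of_forall fun x t _ => by
      rw [norm_mul]
      exact mul_le_mul_of_nonneg_left ((norm_inner_le_norm _ _).trans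
        (mul_le_mul_of_nonneg_right (hM _).2 (norm_nonneg _))) (norm_nonneg _))
    (hφ.norm.mul_const _)
    (.of_forall fun x t _ => by
      rw [inner_grad]
      refine HasDerivAt.const_mul _ ?_
      have : HasDerivAt (fun t : ℝ => x + t • b) b t := by
        simpa using ((hasDerivAt_id t).smul_const b).const_add x
      exact (hψ.differentiable _).hasFDerivAt.comp_hasDerivAt t this)).2
  simpa using this

theorem sym_global {H : E3 → ℝ} (hη : Test univ η) (hH : Test univ H) (a b : E3) :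
    ∫ x, ⟪∇ η x, a⟫ * ⟪∇ H x, b⟫ = ∫ x, ⟪∇ η x, b⟫ * ⟪∇ H x, a⟫ := by
  have i1 : ∀ {ψ : E3 → ℝ}, Test univ ψ → Integrable (fun x => ⟪∇ ψ x, a⟫) volume := fun h => by
    simpa using sym_int_grad isOpen_univ h (continuousOn_const (c := (1 : ℝ))) a
  have d1 := sym_deriv (i1 hη) hH b
  have d2 := (sym_deriv (i1 hH) hη (-b)).neg
  have e1 : (fun t : ℝ => ∫ x, ⟪∇ η x, a⟫ * H (x + t • b)) =
      -fun t : ℝ => ∫ x, ⟪∇ H x, a⟫ * η (x + t • -b) := by
    funext t
    rw [integral_ibp isOpen_univ hη (h := fun x => H (x + t • b))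
      (hH.c1.comp (contDiff_id.add contDiff_const)).contDiffOn a, Pi.neg_apply,
      ← integral_add_right_eq_self (fun x => ⟪∇ H x, a⟫ * η (x + t • -b)) (t • b)]
    simp only [inner_grad, fderiv_comp_add_right, smul_neg, add_neg_cancel_right, mul_comm]
  rw [e1] at d1
  rw [d1.unique d2, ← integral_neg]
  simp only [inner_neg_right, mul_neg, neg_neg, mul_comm]

/-- Replace `h` by `χ h` with compact support.  For `t : ℝ`, by `integral_ibp` and translation invariance
`∫ ∂_a η (x) h (x + t b) = -∫ η (x) ∂_a h (x + t b) = -∫ η (x - t b) ∂_a h (x)`; differentiate both sides at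
`t = 0` (`hasDerivAt_integral_of_dominated_loc_of_deriv_le`). -/
theorem integral_sym (hO : IsOpen O) (hη : Test O η) (hh : ContDiffOn ℝ 1 h O) (a b : E3) :
    ∫ x, ⟪∇ η x, a⟫ * ⟪∇ h x, b⟫ = ∫ x, ⟪∇ η x, b⟫ * ⟪∇ h x, a⟫ := by
  obtain ⟨χ, -, hχ, -, h1⟩ := exists_cutoff hη.cpt.isCompact hO hη.sub
  have key : ∀ a b x, ⟪∇ η x, a⟫ * ⟪∇ h x, b⟫ = ⟪∇ η x, a⟫ * ⟪∇ (fun y => χ y * h y) x, b⟫ := by
    intro a b x
    by_cases hx : x ∈ tsupport η
    · have : (fun y => χ y * h y) =ᶠ[𝓝 x] h := by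
        filter_upwards [(eventually_nhdsSet_iff_forall.1 h1) x hx] with y hy
        rw [hy, one_mul]
      rw [this.gradient_eq]
    · simp [grad_eq_zero_of_notMem hx]
  simp only [key]
  exact sym_global (hη.mono (subset_univ _)) ((hχ.mul hO hh).mono (subset_univ _)) a b

theorem sym_inner_e (a : E3) (i : Fin 3) : ⟪a, e i⟫ = a i := by
  simp [EuclideanSpace.inner_single_right]

theorem sym_inner_cross (a b c : E3) : ⟪cross a b, c⟫ =
    (a 1 * b 2 - a 2 * b 1) * c 0 + (a 2 * b 0 - a 0 * b 2) * c 1 + (a 0 * b 1 - a 1 * b 0) * c 2 := by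
  simp [cross, PiLp.inner_apply, Fin.sum_univ_three, mul_comm]

theorem sym_cont_cross {F G : E3 → E3} (hF : ContinuousOn F O) (hG : ContinuousOn G O) :
    ContinuousOn (fun x => cross (F x) (G x)) O := by
  have : Continuous fun p : E3 × E3 => cross p.1 p.2 := by
    unfold cross
    fun_prop
  exact this.comp_continuousOn (hF.prodMk hG)

theorem sym_snd {x : E3} (hg : ContDiffAt ℝ 2 g x) (j k : Fin 3) :
    ∇ (fun y => ∇ g y j) x k = ∇ (fun y => ∇ g y k) x j := by
  have hd : DifferentiableAt ℝ (fderiv ℝ g) x :=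
    (hg.fderiv_right (m := 1) (by norm_num)).differentiableAt one_ne_zero
  have : ∀ j k, ∇ (fun y => ∇ g y j) x k = fderiv ℝ (fderiv ℝ g) x (e k) (e j) := fun j k => by
    simp only [grad_apply]
    rw [fderiv_clm_apply hd (differentiableAt_const _)]
    simp
  rw [this, this]
  exact (hg.isSymmSndFDerivAt (by simp)).eq _ _

theorem wd_of_dvg (hO : IsOpen O) {B : E3 → E3} (hB : ContDiffOn ℝ 1 B O) :
    WD O B fun x => -dvg B x := by
  intro ψ hψ
  have hc : ∀ i : Fin 3, ContDiffOn ℝ 1 (fun x => B x i) O := fun i =>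
    (EuclideanSpace.proj i : E3 →L[ℝ] ℝ).contDiff.comp_contDiffOn hB
  have e1 : ∀ x, ⟪B x, ∇ ψ x⟫ = ∑ i, ⟪∇ ψ x, e i⟫ * B x i := fun x => by
    simp only [sym_inner_e]
    rw [PiLp.inner_apply]
    simp only [RCLike.inner_apply, conj_trivial]
  have e2 : ∀ x, -dvg B x * ψ x = -∑ i, ψ x * ⟪∇ (fun y => B y i) x, e i⟫ := fun x => by
    by_cases hx : x ∈ O
    · have hd : DifferentiableAt ℝ B x :=
        (hB.contDiffAt (hO.mem_nhds hx)).differentiableAt one_ne_zero
      have : ∀ i, ⟪∇ (fun y => B y i) x, e i⟫ = fderiv ℝ B x (e i) i := fun i => by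
        rw [inner_grad]
        exact congrArg (· (e i)) ((EuclideanSpace.proj i : E3 →L[ℝ] ℝ).hasFDerivAt.comp x
          hd.hasFDerivAt).fderiv
      simp only [this, dvg, ← Finset.mul_sum]
      ring
    · simp [(hψ.eq_zero hx).1]
  simp only [e1, e2]
  rw [integral_neg, integral_finsetSum _ fun i _ => sym_int_grad hO hψ (hc i).continuousOn _,
    integral_finsetSum _ fun i _ =>
      sym_int hO hψ.c1.continuous hψ.cpt hψ.sub (sym_cont_grad hO (hc i) _),
    ← Finset.sum_neg_distrib]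
  exact Finset.sum_congr rfl fun i _ => integral_ibp hO hψ (hc i) _

/-- `∇h × ∇g = curl (h ∇g)` (symmetry of the second derivative of `g`), then `integral_sym` for `h ∂_c g` -/
theorem wd_cross (hO : IsOpen O) (hh : ContDiffOn ℝ 1 h O) (hg : ContDiffOn ℝ 2 g O) :
    WD O (fun x => cross (∇ h x) (∇ g x)) 0 := by
  intro ψ hψ
  have hc : ∀ j : Fin 3, ContDiffOn ℝ 1 (fun x => ∇ g x j) O := fun j =>
    (EuclideanSpace.proj j : E3 →L[ℝ] ℝ).contDiff.comp_contDiffOn (contDiffOn_grad hO hg)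
  have ht : ∀ j : Fin 3, Test O fun x => ψ x * ∇ g x j := fun j => hψ.mul hO (hc j)
  set A : Fin 3 → Fin 3 → Fin 3 → E3 → ℝ := fun j k i x =>
    ⟪∇ (fun y => ψ y * ∇ g y j) x, e k⟫ * ⟪∇ h x, e i⟫ with hA
  have hi : ∀ j k i, Integrable (A j k i) := fun j k i =>
    sym_int_grad hO (ht j) (sym_cont_grad hO hh _) _
  have hs : ∀ j k i, ∫ x, A j k i x = ∫ x, A j i k x := fun j k i =>
    integral_sym hO (ht j) hh _ _
  have key : ∀ x, ⟪cross (∇ h x) (∇ g x), ∇ ψ x⟫ =
      (A 0 1 2 x - A 0 2 1 x) + (A 1 2 0 x - A 1 0 2 x) + (A 2 0 1 x - A 2 1 0 x) := fun x => by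
    by_cases hx : x ∈ O
    · have hd : ∀ j, DifferentiableAt ℝ (fun y => ∇ g y j) x := fun j =>
        ((hc j).contDiffAt (hO.mem_nhds hx)).differentiableAt one_ne_zero
      have hsym := sym_snd (hg.contDiffAt (hO.mem_nhds hx))
      simp only [hA, grad_mul (hψ.differentiable x) (hd _), sym_inner_e, sym_inner_cross,
        PiLp.add_apply, PiLp.smul_apply, smul_eq_mul]
      rw [hsym 1 0, hsym 2 0, hsym 2 1]
      ring
    · simp only [hA, (hψ.eq_zero hx).2, fun j => ((ht j).eq_zero hx).2, inner_zero_left,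
        inner_zero_right, zero_mul, sub_self, add_zero]
  simp only [key, Pi.zero_apply, zero_mul, integral_zero]
  have hz : ∀ j k i, Integrable (fun x => A j k i x - A j i k x) ∧
      ∫ x, (A j k i x - A j i k x) = 0 := fun j k i =>
    ⟨(hi _ _ _).sub (hi _ _ _), by rw [integral_sub (hi _ _ _) (hi _ _ _), hs, sub_self]⟩
  rw [integral_add (f := fun x => A 0 1 2 x - A 0 2 1 x + (A 1 2 0 x - A 1 0 2 x))
      ((hz _ _ _).1.add (hz _ _ _).1) (hz _ _ _).1,
    integral_add (hz _ _ _).1 (hz _ _ _).1, (hz _ _ _).2, (hz _ _ _).2, (hz _ _ _).2]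
  ring

theorem sym_sq {z : ℂ} (h : ‖z‖ = 1) : z.re * z.re + z.im * z.im = 1 := by
  rw [← Complex.normSq_apply, Complex.normSq_eq_norm_sq, h, one_pow]

theorem sym_grad_one {U : E3 → ℂ} {x : E3} (hU : DifferentiableAt ℝ U x)
    (h1 : ∀ᶠ y in 𝓝 x, ‖U y‖ = 1) : ∇ (fun y => (U y).re) x = -(U x).im • om U x ∧
      ∇ (fun y => (U y).im) x = (U x).re • om U x := by
  have hc : DifferentiableAt ℝ (fun y => (U y).re) x := Complex.reCLM.differentiableAt.comp x hU
  have hs : DifferentiableAt ℝ (fun y => (U y).im) x := Complex.imCLM.differentiableAt.comp x hU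
  have e1 : (fun y => (U y).re * (U y).re + (U y).im * (U y).im) =ᶠ[𝓝 x] fun _ => 1 :=
    h1.mono fun y hy => sym_sq hy
  have e2 := e1.gradient_eq
  rw [grad_add (hc.fun_mul hc) (hs.fun_mul hs), grad_mul hc hc, grad_mul hs hs, gradient_fun_const] at e2
  have e3 := sym_sq h1.self_of_nhds
  rw [om]
  generalize ∇ (fun y => (U y).re) x = p at e2 ⊢
  generalize ∇ (fun y => (U y).im) x = q at e2 ⊢
  constructor
  · linear_combination (norm := module) ((U x).re / 2) • e2 - e3 • p
  · linear_combination (norm := module) ((U x).im / 2) • e2 - e3 • q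

/-- With `c = re U`, `s = im U`: test `wd_cross` for `(h, s)` with `ψ c` and for `(h, c)` with `ψ s`; the extra
terms vanish because `c ∇c + s ∇s = 0`, so `∇c`, `∇s` are parallel. -/
theorem wd_om (hO : IsOpen O) (hh : ContDiffOn ℝ 1 h O) {U : E3 → ℂ} (hU : ContDiffOn ℝ 2 U O)
    (h1 : ∀ x ∈ O, ‖U x‖ = 1) : WD O (fun x => cross (∇ h x) (om U x)) 0 := by
  intro ψ hψ
  have hc : ContDiffOn ℝ 2 (fun y => (U y).re) O := Complex.reCLM.contDiff.comp_contDiffOn hU
  have hs : ContDiffOn ℝ 2 (fun y => (U y).im) O := Complex.imCLM.contDiff.comp_contDiffOn hU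
  have hc1 := hc.of_le (show (1 : WithTop ℕ∞) ≤ 2 by norm_num)
  have hs1 := hs.of_le (show (1 : WithTop ℕ∞) ≤ 2 by norm_num)
  have t1 := hψ.mul hO hc1
  have t2 := hψ.mul hO hs1
  have a1 := wd_cross hO hh hs _ t1
  have a2 := wd_cross hO hh hc _ t2
  have key : ∀ x, ⟪cross (∇ h x) (om U x), ∇ ψ x⟫ =
      ⟪cross (∇ h x) (∇ (fun y => (U y).im) x), ∇ (fun y => ψ y * (U y).re) x⟫ -
      ⟪cross (∇ h x) (∇ (fun y => (U y).re) x), ∇ (fun y => ψ y * (U y).im) x⟫ := fun x => by
    by_cases hx : x ∈ O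
    · have hn := hO.mem_nhds hx
      obtain ⟨b1, b2⟩ := sym_grad_one ((hU.contDiffAt hn).differentiableAt two_ne_zero)
        (mem_of_superset hn h1)
      have b3 := sym_sq (h1 x hx)
      rw [grad_mul (hψ.differentiable x) ((hc1.contDiffAt hn).differentiableAt one_ne_zero),
        grad_mul (hψ.differentiable x) ((hs1.contDiffAt hn).differentiableAt one_ne_zero), b1, b2]
      generalize om U x = w
      simp only [sym_inner_cross, PiLp.add_apply, PiLp.smul_apply, smul_eq_mul]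
      linear_combination -((∇ h x 1 * w 2 - ∇ h x 2 * w 1) * ∇ ψ x 0 +
        (∇ h x 2 * w 0 - ∇ h x 0 * w 2) * ∇ ψ x 1 + (∇ h x 0 * w 1 - ∇ h x 1 * w 0) * ∇ ψ x 2) * b3
    · simp [(hψ.eq_zero hx).2, (t1.eq_zero hx).2, (t2.eq_zero hx).2]
  simp only [key, Pi.zero_apply, zero_mul, integral_zero] at a1 a2 ⊢
  rw [integral_sub (t1.integrable_inner hO
      (sym_cont_cross (continuousOn_grad hO hh) (continuousOn_grad hO hs1)))
    (t2.integrable_inner hO (sym_cont_cross (continuousOn_grad hO hh) (continuousOn_grad hO hc1))),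
    a1, a2, sub_self]

theorem continuousOn_om (hO : IsOpen O) {U : E3 → ℂ} (hU : ContDiffOn ℝ 1 U O) :
    ContinuousOn (om U) O := by
  have hc : ContDiffOn ℝ 1 (fun y => (U y).re) O := Complex.reCLM.contDiff.comp_contDiffOn hU
  have hs : ContDiffOn ℝ 1 (fun y => (U y).im) O := Complex.imCLM.contDiff.comp_contDiffOn hU
  exact (hc.continuousOn.smul (continuousOn_grad hO hs)).sub
    (hs.continuousOn.smul (continuousOn_grad hO hc))

/-- differentiate `U * conj U = 1`: `dU = i U ω` -/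
theorem grad_pow {U : E3 → ℂ} {x : E3} (hU : DifferentiableAt ℝ U x) (h1 : ∀ᶠ y in 𝓝 x, ‖U y‖ = 1)
    (n : ℕ) : ∇ (fun y => (U y ^ n).re) x = -((n : ℝ) * (U x ^ n).im) • om U x ∧
      ∇ (fun y => (U y ^ n).im) x = ((n : ℝ) * (U x ^ n).re) • om U x := by
  have hre : ∀ n : ℕ, DifferentiableAt ℝ (fun y => (U y ^ n).re) x := fun n =>
    Complex.reCLM.differentiableAt.comp x (hU.pow n)
  have him : ∀ n : ℕ, DifferentiableAt ℝ (fun y => (U y ^ n).im) x := fun n =>
    Complex.imCLM.differentiableAt.comp x (hU.pow n)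
  have hc : DifferentiableAt ℝ (fun y => (U y).re) x := Complex.reCLM.differentiableAt.comp x hU
  have hs : DifferentiableAt ℝ (fun y => (U y).im) x := Complex.imCLM.differentiableAt.comp x hU
  obtain ⟨b1, b2⟩ := sym_grad_one hU h1
  induction n with
  | zero => simp
  | succ n ih =>
    simp only [pow_succ, Complex.mul_re, Complex.mul_im]
    rw [grad_sub ((hre n).fun_mul hc) ((him n).fun_mul hs),
      grad_add ((hre n).fun_mul hs) ((him n).fun_mul hc),
      grad_mul (hre n) hc, grad_mul (him n) hs, grad_mul (hre n) hs, grad_mul (him n) hc,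
      ih.1, ih.2, b1, b2]
    generalize om U x = w
    push_cast
    constructor <;> module

end Crest.Agent.R83
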