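import Crest.Agent.R83.Defs

/-!
# R83 TASK Tst: gradients, test functions, weakly divergence-free continuous fields
-/

set_option autoImplicit false

namespace Crest.Agent.R83

open MeasureTheory Set Filter Topology
open scoped Gradient RealInnerProductSpace ENNReal NNReal ContDiff

variable {Ω Ω' O : Set E3} {ψ η f g : E3 → ℝ} {J J' : E3 → E3} {x : E3}

theorem inner_grad (f : E3 → ℝ) (x a : E3) : ⟪∇ f x, a⟫ = fderiv ℝ f x a := by
  rw [gradient, InnerProductSpace.toDual_symm_apply]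

theorem norm_grad (f : E3 → ℝ) (x : E3) : ‖∇ f x‖ = ‖fderiv ℝ f x‖ := by
  rw [gradient, LinearIsometryEquiv.norm_map]

theorem grad_apply (f : E3 → ℝ) (x : E3) (i : Fin 3) : ∇ f x i = fderiv ℝ f x (e i) := by
  rw [← inner_grad, EuclideanSpace.inner_single_right]
  simp

theorem grad_add (hf : DifferentiableAt ℝ f x) (hg : DifferentiableAt ℝ g x) :
    ∇ (fun y => f y + g y) x = ∇ f x + ∇ g x := by
  rw [gradient, fderiv_fun_add hf hg, map_add]
  rfl

theorem grad_sub (hf : DifferentiableAt ℝ f x) (hg : DifferentiableAt ℝ g x) :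
    ∇ (fun y => f y - g y) x = ∇ f x - ∇ g x := by
  rw [gradient, fderiv_fun_sub hf hg, map_sub]
  rfl

theorem grad_const_mul (c : ℝ) (hf : DifferentiableAt ℝ f x) :
    ∇ (fun y => c * f y) x = c • ∇ f x := by
  refine ext_inner_right ℝ fun a => ?_
  rw [real_inner_smul_left, inner_grad, inner_grad, fderiv_const_mul hf]
  rfl

theorem grad_const_add (c : ℝ) (f : E3 → ℝ) (x : E3) : ∇ (fun y => c + f y) x = ∇ f x := by
  rw [gradient, fderiv_const_add]
  rfl

theorem grad_mul (hf : DifferentiableAt ℝ f x) (hg : DifferentiableAt ℝ g x) :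
    ∇ (fun y => f y * g y) x = f x • ∇ g x + g x • ∇ f x := by
  refine ext_inner_right ℝ fun a => ?_
  rw [inner_add_left, real_inner_smul_left, real_inner_smul_left, inner_grad, inner_grad, inner_grad,
    fderiv_fun_mul hf hg]
  rfl

theorem grad_comp {h : ℝ → ℝ} {h' : ℝ} (hh : HasDerivAt h h' (f x)) (hf : DifferentiableAt ℝ f x) :
    ∇ (fun y => h (f y)) x = h' • ∇ f x := by
  refine ext_inner_right ℝ fun a => ?_
  rw [real_inner_smul_left, inner_grad, inner_grad]
  have h1 := (hh.comp_hasFDerivAt x hf.hasFDerivAt).fderiv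
  rw [show (fun y => h (f y)) = h ∘ f from rfl, h1]
  rfl

theorem grad_inner (a x : E3) : ∇ (fun y => ⟪a, y⟫) x = a := by
  refine ext_inner_right ℝ fun b => ?_
  rw [inner_grad]
  exact congrArg (fun L : E3 →L[ℝ] ℝ => L b) (innerSL ℝ a).fderiv

theorem grad_coord (i : Fin 3) (x : E3) : ∇ (fun y : E3 => y i) x = e i := by
  rw [← grad_inner (e i) x]
  congr 1
  funext y
  simp [e, EuclideanSpace.inner_single_left]

theorem grad_norm_sq (x : E3) : ∇ (fun y : E3 => ‖y‖ ^ 2) x = (2 : ℝ) • x := by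
  refine ext_inner_right ℝ fun b => ?_
  rw [inner_grad, (hasStrictFDerivAt_norm_sq x).hasFDerivAt.fderiv, real_inner_smul_left]
  simp

theorem contDiffAt_grad {n : ℕ} (hf : ContDiffAt ℝ (n + 1 : ℕ) f x) : ContDiffAt ℝ n (∇ f) x := by
  have h1 : ContDiffAt ℝ n (fderiv ℝ f) x := hf.fderiv_right (by push_cast; exact le_rfl)
  exact (InnerProductSpace.toDual ℝ E3).symm.toContinuousLinearEquiv.contDiff.contDiffAt.comp x h1

theorem continuousOn_grad (hO : IsOpen O) (hf : ContDiffOn ℝ 1 f O) : ContinuousOn (∇ f) O := by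
  exact fun x hx =>
    (contDiffAt_grad (n := 0) (hf.contDiffAt (hO.mem_nhds hx))).continuousAt.continuousWithinAt

theorem contDiffOn_grad (hO : IsOpen O) (hf : ContDiffOn ℝ 2 f O) : ContDiffOn ℝ 1 (∇ f) O := by
  exact fun x hx => (contDiffAt_grad (n := 1) (hf.contDiffAt (hO.mem_nhds hx))).contDiffWithinAt

/-- joint continuity of the gradient in the second variable (`ContDiffAt.fderiv`) -/
theorem continuousAt_grad_param {P : Type} [NormedAddCommGroup P] [NormedSpace ℝ P] {k : P × E3 → ℝ}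
    {p : P × E3} (hk : ContDiffAt ℝ 1 k p) :
    ContinuousAt (fun q : P × E3 => ∇ (fun y => k (q.1, y)) q.2) p := by
  have h1 : ContDiffAt ℝ 0 (fun q : P × E3 => fderiv ℝ (fun y => k (q.1, y)) q.2) p := by
    refine ContDiffAt.fderiv (f := fun (q : P × E3) y => k (q.1, y)) (g := fun q => q.2) (n := 1) ?_
      contDiffAt_snd (by simp)
    exact ContDiffAt.comp (g := k) (f := fun r : (P × E3) × E3 => (r.1.1, r.2)) _ hk
      (contDiffAt_fst.fst.prodMk contDiffAt_snd)
  exact (InnerProductSpace.toDual ℝ E3).symm.continuous.continuousAt.comp h1.continuousAt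

theorem grad_eq_zero_of_notMem (hx : x ∉ tsupport f) : ∇ f x = 0 := by
  rw [gradient, Function.notMem_support.1 fun h => hx (support_fderiv_subset ℝ h), map_zero]

theorem Test.mono (h : Test Ω ψ) (hΩ : Ω ⊆ Ω') : Test Ω' ψ := by
  exact ⟨h.c1, h.cpt, h.sub.trans hΩ⟩

theorem Test.zero (Ω : Set E3) : Test Ω fun _ => 0 := by
  exact ⟨contDiff_const, HasCompactSupport.zero, by simp [tsupport]⟩

theorem Test.add (h : Test Ω ψ) (h' : Test Ω η) : Test Ω fun x => ψ x + η x := by
  exact ⟨h.c1.add h'.c1, h.cpt.add h'.cpt, (tsupport_add ψ η).trans (union_subset h.sub h'.sub)⟩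

theorem Test.sub' (h : Test Ω ψ) (h' : Test Ω η) : Test Ω fun x => ψ x - η x := by
  exact ⟨h.c1.sub h'.c1, h.cpt.sub h'.cpt, (tsupport_sub ψ η).trans (union_subset h.sub h'.sub)⟩

theorem Test.const_mul (h : Test Ω ψ) (c : ℝ) : Test Ω fun x => c * ψ x := by
  exact ⟨contDiff_const.mul h.c1, h.cpt.mul_left, (tsupport_mul_subset_right).trans h.sub⟩

/-- product with a function that is `C¹` on the open set `O` only -/
theorem Test.mul (hO : IsOpen O) (h : Test O ψ) (hg : ContDiffOn ℝ 1 g O) :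
    Test O fun x => ψ x * g x := by
  refine ⟨contDiff_iff_contDiffAt.2 fun x => ?_, h.cpt.mul_right, (tsupport_mul_subset_left).trans h.sub⟩
  by_cases hx : x ∈ tsupport ψ
  · exact h.c1.contDiffAt.mul (hg.contDiffAt (hO.mem_nhds (h.sub hx)))
  · refine (contDiffAt_const (c := (0 : ℝ))).congr_of_eventuallyEq ?_
    filter_upwards [notMem_tsupport_iff_eventuallyEq.1 hx] with y hy
    rw [hy, Pi.zero_apply, zero_mul]

theorem Test.mul_test (h : Test Ω ψ) (h' : Test Ω' η) : Test (Ω ∩ Ω') fun x => ψ x * η x := by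
  exact ⟨h.c1.mul h'.c1, h.cpt.mul_right,
    subset_inter ((tsupport_mul_subset_left).trans h.sub) ((tsupport_mul_subset_right).trans h'.sub)⟩

theorem Test.differentiable (h : Test Ω ψ) : Differentiable ℝ ψ := by
  exact h.c1.differentiable one_ne_zero

theorem Test.continuous_grad (h : Test Ω ψ) : Continuous (∇ ψ) := by
  exact continuousOn_univ.1 (continuousOn_grad isOpen_univ h.c1.contDiffOn)

theorem Test.hasCompactSupport_grad (h : Test Ω ψ) : HasCompactSupport (∇ ψ) := by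
  exact HasCompactSupport.intro h.cpt fun x hx => grad_eq_zero_of_notMem hx

theorem Test.eq_zero (h : Test Ω ψ) (hx : x ∉ Ω) : ψ x = 0 ∧ ∇ ψ x = 0 := by
  exact ⟨image_eq_zero_of_notMem_tsupport fun h' => hx (h.sub h'),
    grad_eq_zero_of_notMem fun h' => hx (h.sub h')⟩

theorem Test.memLp (h : Test Ω ψ) (p : ℝ≥0∞) : MemLp ψ p volume := by
  exact h.c1.continuous.memLp_of_hasCompactSupport h.cpt

theorem Test.memLp_grad (h : Test Ω ψ) (p : ℝ≥0∞) : MemLp (∇ ψ) p volume := by
  exact h.continuous_grad.memLp_of_hasCompactSupport h.hasCompactSupport_grad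

theorem Test.bdd (h : Test Ω ψ) : ∃ M : ℝ, 0 ≤ M ∧ ∀ x, |ψ x| ≤ M ∧ ‖∇ ψ x‖ ≤ M := by
  obtain ⟨A, hA⟩ := h.c1.continuous.bounded_above_of_compact_support h.cpt
  obtain ⟨B, hB⟩ := h.continuous_grad.bounded_above_of_compact_support h.hasCompactSupport_grad
  exact ⟨max A B, (norm_nonneg _).trans ((hA 0).trans (le_max_left _ _)),
    fun x => ⟨(hA x).trans (le_max_left _ _), (hB x).trans (le_max_right _ _)⟩⟩

/-- `exists_contDiff_tsupport_subset`, `exists_contMDiff_support_eq`, or `exists_contMDiffMap_zero_one_nhds` -/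
theorem exists_cutoff {K : Set E3} (hK : IsCompact K) (hO : IsOpen O) (h : K ⊆ O) :
    ∃ χ : E3 → ℝ, ContDiff ℝ ∞ χ ∧ Test O χ ∧ (∀ x, 0 ≤ χ x ∧ χ x ≤ 1) ∧ ∀ᶠ x in 𝓝ˢ K, χ x = 1 := by
  obtain ⟨L, hL, h1, h2⟩ := exists_compact_between hK hO h
  obtain ⟨L', hL', h3, h4⟩ := exists_compact_between hL hO h2
  obtain ⟨χ, h5, h6, h7⟩ := exists_contMDiffMap_zero_one_of_isClosed (modelWithCornersSelf ℝ E3) (n := ⊤)
    (isOpen_interior (s := L')).isClosed_compl hL.isClosed
    (disjoint_left.2 fun x hx hx' => hx (h3 hx'))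
  have hs : tsupport χ ⊆ L' := closure_minimal
    (fun x hx => by_contra fun h' => hx (h5 fun h'' => h' (interior_subset h''))) hL'.isClosed
  have hc : ContDiff ℝ ∞ χ := χ.contMDiff.contDiff
  refine ⟨χ, hc, ⟨hc.of_le (by simp), hL'.of_isClosed_subset (isClosed_tsupport _) hs, hs.trans h4⟩,
    fun x => h7 x, ?_⟩
  filter_upwards [isOpen_interior.mem_nhdsSet.2 h1] with x hx using h6 (interior_subset hx)

/-- take a cut-off `χ` of `tsupport ψ \ O'` in `O`, `ψ₁ = ψ χ` -/
theorem Test.split {O' : Set E3} (hO : IsOpen O) (hO' : IsOpen O') (h : Test (O ∪ O') ψ) :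
    ∃ ψ₁ ψ₂, Test O ψ₁ ∧ Test O' ψ₂ ∧ ψ = fun x => ψ₁ x + ψ₂ x := by
  obtain ⟨χ, h1, h2, -, h3⟩ := exists_cutoff (K := tsupport ψ \ O') (h.cpt.diff hO') hO
    fun x hx => (h.sub hx.1).resolve_right hx.2
  have h4 : ContDiff ℝ 1 χ := h2.c1
  refine ⟨fun x => ψ x * χ x, fun x => ψ x * (1 - χ x), (h.mul_test h2).mono inter_subset_right,
    ⟨h.c1.mul (contDiff_const.sub h4), h.cpt.mul_right, fun x hx => ?_⟩, funext fun x => by ring⟩
  by_contra hx'
  have h5 : x ∈ tsupport ψ := tsupport_mul_subset_left hx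
  refine notMem_tsupport_iff_eventuallyEq.2 ?_ hx
  filter_upwards [h3.filter_mono (nhds_le_nhdsSet (show x ∈ tsupport ψ \ O' from ⟨h5, hx'⟩))] with y hy
  rw [hy, sub_self, mul_zero, Pi.zero_apply]

theorem Test.integrable_inner (hO : IsOpen O) (h : Test O ψ) (hJ : ContinuousOn J O) :
    Integrable (fun x => ⟪J x, ∇ ψ x⟫) volume := by
  refine Continuous.integrable_of_hasCompactSupport (continuous_iff_continuousAt.2 fun x => ?_)
    (HasCompactSupport.intro h.cpt fun x hx => by rw [grad_eq_zero_of_notMem hx, inner_zero_right])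
  by_cases hx : x ∈ tsupport ψ
  · exact ContinuousAt.inner (𝕜 := ℝ) (hJ.continuousAt (hO.mem_nhds (h.sub hx))) h.continuous_grad.continuousAt
  · refine (continuousAt_const (y := (0 : ℝ))).congr ?_
    filter_upwards [(isClosed_tsupport ψ).isOpen_compl.mem_nhds hx] with y hy
    rw [grad_eq_zero_of_notMem hy, inner_zero_right]

theorem WD.mono (h : WD Ω J f) (hΩ : Ω' ⊆ Ω) : WD Ω' J f := by
  exact fun ψ hψ => h ψ (hψ.mono hΩ)

theorem WD.congr (h : WD Ω J f) (hJ : ∀ᵐ x, x ∈ Ω → J x = J' x) (hf : ∀ᵐ x, x ∈ Ω → f x = g x) :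
    WD Ω J' g := by
  intro ψ hψ
  have h1 : ∫ x, ⟪J' x, ∇ ψ x⟫ = ∫ x, ⟪J x, ∇ ψ x⟫ := by
    refine integral_congr_ae ?_
    filter_upwards [hJ] with x hx
    by_cases h' : x ∈ Ω
    · rw [hx h']
    · rw [(hψ.eq_zero h').2, inner_zero_right, inner_zero_right]
  rw [h1, h ψ hψ]
  refine integral_congr_ae ?_
  filter_upwards [hf] with x hx
  by_cases h' : x ∈ Ω
  · rw [hx h']
  · rw [(hψ.eq_zero h').1, mul_zero, mul_zero]

theorem WD.smul (h : WD Ω J f) (c : ℝ) : WD Ω (fun x => c • J x) fun x => c * f x := by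
  intro ψ hψ
  simp only [real_inner_smul_left, mul_assoc]
  rw [integral_const_mul, integral_const_mul, h ψ hψ]

theorem WD.add_cont (hO : IsOpen O) (h : WD O J 0) (h' : WD O J' 0) (hJ : ContinuousOn J O)
    (hJ' : ContinuousOn J' O) : WD O (fun x => J x + J' x) 0 := by
  intro ψ hψ
  simp only [inner_add_left]
  rw [integral_add (hψ.integrable_inner hO hJ) (hψ.integrable_inner hO hJ'), h ψ hψ, h' ψ hψ]
  simp

theorem WD.union_cont {O' : Set E3} (hO : IsOpen O) (hO' : IsOpen O') (h : WD O J 0) (h' : WD O' J 0)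
    (hJ : ContinuousOn J (O ∪ O')) : WD (O ∪ O') J 0 := by
  intro ψ hψ
  obtain ⟨ψ₁, ψ₂, h1, h2, rfl⟩ := hψ.split hO hO'
  simp only [grad_add (h1.differentiable _) (h2.differentiable _), inner_add_right]
  rw [integral_add (h1.integrable_inner hO (hJ.mono subset_union_left))
    (h2.integrable_inner hO' (hJ.mono subset_union_right)), h _ h1, h' _ h2]
  simp

theorem Bd.src {K : Set E3} {M : ℝ} (h : Bd K M f) (hK : Bornology.IsBounded K) : Src f := by
  obtain ⟨R, hR⟩ := hK.subset_ball 0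
  exact ⟨R, M, h.meas, h.bdd, fun x hx => h.off x fun h' => hx (hR h')⟩

theorem Bd.l1 {K : Set E3} {M : ℝ} (h : Bd K M f) (hK : IsCompact K) :
    L1 K (M * volume.real K) f := by
  have h1 : IntegrableOn f K volume :=
    Measure.integrableOn_of_bounded hK.measure_lt_top.ne h.meas.aestronglyMeasurable (ae_of_all _ h.bdd)
  refine ⟨(integrableOn_iff_integrable_of_support_subset fun x hx => by_contra fun h' => hx (h.off x h')).1 h1,
    ?_, h.off⟩
  rw [← setIntegral_eq_integral_of_forall_compl_eq_zero (s := K) fun x hx => by rw [h.off x hx, abs_zero]]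
  have h2 := norm_setIntegral_le_of_norm_le_const (μ := volume) (f := fun x => |f x|) (C := M)
    hK.measure_lt_top fun x _ => by simpa using h.bdd x
  exact (le_abs_self _).trans h2

theorem Src.memLp (h : Src f) (p : ℝ≥0∞) : MemLp f p volume := by
  obtain ⟨R, M, h⟩ := h
  refine (memLp_indicator_const p measurableSet_ball M (Or.inr (measure_ball_lt_top (x := (0 : E3))
    (r := R)).ne)).of_le h.meas.aestronglyMeasurable (ae_of_all _ fun x => ?_)
  by_cases hx : x ∈ Metric.ball (0 : E3) R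
  · rw [indicator_of_mem hx]
    exact (h.bdd x).trans (le_abs_self _)
  · rw [h.off x hx, norm_zero]
    exact norm_nonneg _

theorem Src.zero : Src 0 := by
  exact ⟨0, 0, measurable_const, fun _ => by simp, fun _ _ => rfl⟩

theorem Src.add (h : Src f) (h' : Src g) : Src fun x => f x + g x := by
  obtain ⟨R, M, h⟩ := h
  obtain ⟨R', M', h'⟩ := h'
  refine ⟨max R R', M + M', h.meas.add h'.meas, fun x => (abs_add_le _ _).trans (add_le_add (h.bdd x) (h'.bdd x)),
    fun x hx => ?_⟩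
  rw [h.off x fun h1 => hx (Metric.ball_subset_ball (le_max_left _ _) h1),
    h'.off x fun h1 => hx (Metric.ball_subset_ball (le_max_right _ _) h1), add_zero]

theorem Src.sub (h : Src f) (h' : Src g) : Src fun x => f x - g x := by
  obtain ⟨R, M, h⟩ := h
  obtain ⟨R', M', h'⟩ := h'
  refine ⟨max R R', M + M', h.meas.sub h'.meas, fun x => (abs_sub _ _).trans (add_le_add (h.bdd x) (h'.bdd x)),
    fun x hx => ?_⟩
  rw [h.off x fun h1 => hx (Metric.ball_subset_ball (le_max_left _ _) h1),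
    h'.off x fun h1 => hx (Metric.ball_subset_ball (le_max_right _ _) h1), sub_zero]

theorem Src.const_mul (h : Src f) (c : ℝ) : Src fun x => c * f x := by
  obtain ⟨R, M, h⟩ := h
  refine ⟨R, |c| * M, h.meas.const_mul c, fun x => ?_, fun x hx => by rw [h.off x hx, mul_zero]⟩
  rw [abs_mul]
  exact mul_le_mul_of_nonneg_left (h.bdd x) (abs_nonneg _)

theorem Ell.memLp_smul {c C : ℝ} {γ : E3 → ℝ} (h : Ell c C γ) (hJ : MemLp J 2 volume) :
    MemLp (fun x => γ x • J x) 2 volume := by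
  refine hJ.of_le_mul (c := max |c| |C|) (h.meas.aestronglyMeasurable.smul hJ.1) (ae_of_all _ fun x => ?_)
  rw [norm_smul]
  exact mul_le_mul_of_nonneg_right (abs_le_max_abs_abs (h.le x) (h.ge x)) (norm_nonneg _)

end Crest.Agent.R83
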